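import Vale.Agent.P073Y.Fl.Sk
import Vale.Agent.P073Y.Cut.Box

/-!
# Slabs in a box
-/

open Set Metric Topology Filter

namespace P073.Fl

namespace Boxc

open P073.Cut P073.Cut.Box

theorem lev_eq (X : Set E3) (i : Fin 3) (a : ℝ) {r : ℝ} (hr : 0 < r) :
    lev X (fun y => (y i - a) / r) 0 = {y ∈ X | y i = a} := by
  ext y
  simp only [lev, mem_ofPred_eq, div_eq_zero_iff, hr.ne', or_false, sub_eq_zero]

theorem mem_band {X : Set E3} {i : Fin 3} {a r c : ℝ} (hr : 0 < r) {y : E3} :
    y ∈ band X (fun y => (y i - a) / r) c ↔ y ∈ X ∧ a - c * r ≤ y i ∧ y i ≤ a + c * r := by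
  simp only [band, mem_ofPred_eq, abs_le, le_div_iff₀ hr, div_le_iff₀ hr]
  exact and_congr_right fun _ =>
    ⟨fun h => ⟨by linarith [h.1], by linarith [h.2]⟩, fun h => ⟨by linarith [h.1], by linarith [h.2]⟩⟩

theorem upd_mem {lo hi y : E3} (hy : y ∈ Icc lo hi) (i : Fin 3) {b : ℝ} (h1 : lo i ≤ b)
    (h2 : b ≤ hi i) : Function.update y i b ∈ Icc lo hi := by
  constructor <;> intro j <;> rcases eq_or_ne j i with rfl | h
  · rwa [Function.update_self]
  · rw [Function.update_of_ne h]; exact hy.1 j
  · rwa [Function.update_self]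
  · rw [Function.update_of_ne h]; exact hy.2 j

/-- the product chart of a slab -/
noncomputable def chart {lo hi : E3} (i : Fin 3) {a r c : ℝ} (hr : 0 < r) (hc : 0 < c)
    (h1 : lo i < a - c * r) (h2 : a + c * r < hi i) :
    ConHomeo (lev (Icc lo hi) (fun y => (y i - a) / r) 0 ×ˢ Icc (-c) c)
      (band (Icc lo hi) (fun y => (y i - a) / r) c) where
  toFun q := Function.update q.1 i (a + r * q.2)
  invFun y := (Function.update y i a, (y i - a) / r)
  mapsTo q hq := by
    have h3 : a - c * r ≤ a + r * q.2 := by nlinarith [hq.2.1]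
    have h4 : a + r * q.2 ≤ a + c * r := by nlinarith [hq.2.2]
    refine (mem_band hr).2 ⟨upd_mem hq.1.1 i (by linarith) (by linarith), ?_⟩
    simp only [Function.update_self]
    exact ⟨h3, h4⟩
  mapsTo_inv y hy := by
    have h3 := mul_pos hc hr
    refine ⟨?_, abs_le.1 hy.2⟩
    rw [lev_eq _ _ _ hr]
    exact ⟨upd_mem hy.1 i (by linarith) (by linarith), Function.update_self _ _ _⟩
  left_inv q hq := by
    have h3 := hq.1
    rw [lev_eq _ _ _ hr] at h3
    refine Prod.ext ?_ ?_
    · simp only [Function.update_idem]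
      rw [← h3.2, Function.update_eq_self]
    · simp only [Function.update_self]
      field_simp
      ring
  right_inv y _ := by
    have h3 : a + r * ((y i - a) / r) = y i := by
      field_simp
      ring
    simp only [Function.update_idem]
    rw [h3, Function.update_eq_self]
  cont := (continuous_fst.update i (by fun_prop)).continuousOn
  cont_inv := ((continuous_id.update i continuous_const).prodMk (by fun_prop)).continuousOn
  conical := by
    refine conicalOn_aff (Convex.prod ?_ (convex_Icc _ _)) fun x v t => ?_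
    · rw [lev_eq _ _ _ hr]
      exact (convex_Icc lo hi).inter (convex_hyperplane
        (f := fun y : E3 => y i) ⟨fun _ _ => rfl, fun _ _ => rfl⟩ a)
    · funext j
      rcases eq_or_ne j i with rfl | h
      · simp only [Function.update_self, Pi.add_apply, Pi.smul_apply, Pi.sub_apply, smul_eq_mul,
          Prod.snd_add, Prod.smul_snd]
        ring
      · simp only [Function.update_of_ne h, Pi.add_apply, Pi.smul_apply, Pi.sub_apply,
          smul_eq_mul, Prod.fst_add, Prod.smul_fst]
        ring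

theorem upd_frontier {lo hi y : E3} (hy : y ∈ Icc lo hi) {i : Fin 3} {b : ℝ}
    (h0 : y i ∈ Ioo (lo i) (hi i)) (hb : b ∈ Ioo (lo i) (hi i)) :
    Function.update y i b ∈ frontier (Icc lo hi) ↔ y ∈ frontier (Icc lo hi) := by
  rw [frontier_box, mem_sep_iff, mem_sep_iff, and_iff_right hy,
    and_iff_right (upd_mem hy i hb.1.le hb.2.le)]
  refine exists_congr fun j => ?_
  rcases eq_or_ne j i with rfl | h
  · rw [Function.update_self]
    exact iff_of_false (fun h => h.elim hb.1.ne' hb.2.ne) fun h => h.elim h0.1.ne' h0.2.ne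
  · rw [Function.update_of_ne h]

theorem co_ne_two (b : Bool) : (2 : Fin 3) ≠ co b := by
  cases b <;> decide

theorem co_ne {b b' : Bool} (h : b ≠ b') : co b ≠ co b' := by
  revert h
  cases b <;> cases b' <;> decide

theorem below {x a r c : ℝ} (hr : 0 < r) (h : x < a - c * r) : (x - a) / r < -c := by
  rw [div_lt_iff₀ hr]
  linarith

theorem above {x a r c : ℝ} (hr : 0 < r) (h : a + c * r < x) : c < (x - a) / r := by
  rw [lt_div_iff₀ hr]
  linarith

theorem line_ball {lo hi : E3} (h : ∀ i, lo i < hi i) {a b : ℝ} (ha : a ∈ Ioo (lo 0) (hi 0))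
    (hb : b ∈ Ioo (lo 1) (hi 1)) : ConBall 1 {y ∈ Icc lo hi | y 0 = a ∧ y 1 = b}
      {y ∈ frontier (Icc lo hi) | y 0 = a ∧ y 1 = b} := by
  obtain ⟨h1, h2⟩ := (box h).2.2.2 a ha b hb
  rw [h2]
  exact h1.conBall

end Boxc

open Boxc P073.Cut P073.Cut.Box

theorem boxc : BOXC := by
  intro ι s col a r lo hi c h hc hr hs
  have hlo : lo ∈ Icc lo hi := ⟨le_rfl, fun i => (h i).le⟩
  have hhi : hi ∈ Icc lo hi := ⟨fun i => (h i).le, le_rfl⟩
  have hI : ∀ k ∈ s, a k ∈ Ioo (lo (co (col k))) (hi (co (col k))) := fun k hk => by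
    have h1 := mul_pos hc (hr k hk).1
    exact ⟨by linarith [(hr k hk).2.1], by linarith [(hr k hk).2.2]⟩
  refine ⟨(box h).1, hc, fun k _ => by fun_prop, fun k hk => ?_, fun k hk => ?_, fun k hk => ?_,
    fun k hk j hj hkj => ?_⟩
  · rw [lev_eq _ _ _ (hr k hk).1, lev_eq _ _ _ (hr k hk).1]
    exact (box h).2.2.1 _ _ (hI k hk)
  · rw [frontier_box]
    exact ⟨⟨lo, ⟨hlo, 0, Or.inl rfl⟩, below (hr k hk).1 (hr k hk).2.1⟩,
      hi, ⟨hhi, 0, Or.inr rfl⟩, above (hr k hk).1 (hr k hk).2.2⟩
  · obtain ⟨h0, h1, h2⟩ := hr k hk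
    refine ⟨chart (co (col k)) h0 hc h1 h2, fun x hx => ?_⟩
    rw [lev_eq _ _ _ h0] at hx
    refine ⟨?_, fun t ht => ⟨?_, ?_, fun j _ hjk => ?_⟩⟩
    · change Function.update x _ (a k + r k * 0) = x
      rw [mul_zero, add_zero, ← hx.2, Function.update_eq_self]
    · change (Function.update x (co (col k)) (a k + r k * t) (co (col k)) - a k) / r k = t
      rw [Function.update_self]
      field_simp
      ring
    · refine upd_frontier hx.1 (hx.2 ▸ hI k hk) ⟨?_, ?_⟩
      · change _ < a k + r k * t
        nlinarith [ht.1]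
      · change a k + r k * t < _
        nlinarith [ht.2]
    · change Same c ((Function.update x (co (col k)) (a k + r k * t) (co (col j)) - a j) / r j) _
      rw [Function.update_of_ne (co_ne hjk)]
      exact fun _ _ => ⟨Iff.rfl, Iff.rfl⟩
  · by_cases hcol : col k = col j
    · refine Or.inl (disjoint_left.2 fun y h1 h2 => ?_)
      rw [mem_band (hr k hk).1] at h1
      rw [mem_band (hr j hj).1, ← hcol] at h2
      rcases hs k hk j hj hkj hcol with h3 | h3
      · linarith [h1.2.2, h2.2.1]
      · linarith [h1.2.1, h2.2.2]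
    · refine Or.inr ⟨hcol, ?_, ?_⟩
      · rw [lev_eq _ _ _ (hr k hk).1, lev_eq _ _ _ (hr k hk).1, lev_eq _ _ _ (hr j hj).1,
          lev_eq _ _ _ (hr j hj).1]
        have h1 := hI k hk
        have h2 := hI j hj
        simp only [mem_ofPred_eq, and_assoc]
        cases hk' : col k <;> cases hj' : col j <;> rw [hk'] at h1 hcol <;> rw [hj'] at h2 hcol
        · exact (hcol rfl).elim
        · exact line_ball h h1 h2
        · simp only [and_comm (a := _ = a k)]
          exact line_ball h h2 h1
        · exact (hcol rfl).elim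
      · rw [lev_eq _ _ _ (hr k hk).1, frontier_box]
        have h1 := hI k hk
        have h2 := co_ne (Ne.symm hcol)
        refine ⟨⟨Function.update lo (co (col k)) (a k), ⟨⟨upd_mem hlo _ h1.1.le h1.2.le, 2,
          Or.inl (Function.update_of_ne (co_ne_two _) _ _)⟩, Function.update_self _ _ _⟩, ?_⟩,
          Function.update hi (co (col k)) (a k), ⟨⟨upd_mem hhi _ h1.1.le h1.2.le, 2,
          Or.inr (Function.update_of_ne (co_ne_two _) _ _)⟩, Function.update_self _ _ _⟩, ?_⟩
        · simp only [Function.update_of_ne h2]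
          exact below (hr j hj).1 (hr j hj).2.1
        · simp only [Function.update_of_ne h2]
          exact above (hr j hj).1 (hr j hj).2.2

end P073.Fl
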