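import Vale.Agent.P073Y.Fl.Sk
import Vale.Agent.P073Y.Cut.All

/-!
# Extension over the columns between bands
-/

open Set Metric Topology Filter

namespace P073.Fl

namespace FillcAux

open P073.Cut

/-! ### positions -/

theorem same_neg {c a b : ℝ} (h : Same c a b) : Same c (-a) (-b) := by
  intro r hr
  obtain ⟨h1, h2⟩ := h (-r) ⟨by linarith [hr.2], by linarith [hr.1]⟩
  exact ⟨by rw [neg_le, neg_le (a := b)]; exact h2, by rw [le_neg, le_neg (b := b)]; exact h1⟩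

theorem same_le {c a b : ℝ} (hc : 0 < c) (h : Same c a b) : a ≤ -c ↔ b ≤ -c :=
  (h (-c) ⟨le_rfl, by linarith⟩).1

theorem same_eq {c a b : ℝ} (hc : 0 < c) (h : Same c a b) : a = -c ↔ b = -c := by
  obtain ⟨h1, h2⟩ := h (-c) ⟨le_rfl, by linarith⟩
  rw [le_antisymm_iff, le_antisymm_iff, h1, h2]

theorem same_abs {c a b : ℝ} (hc : 0 < c) (h : Same c a b) : |a| ≤ c ↔ |b| ≤ c := by
  rw [abs_le, abs_le, (h (-c) ⟨le_rfl, by linarith⟩).2, (h c ⟨by linarith, le_rfl⟩).1]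

theorem same_lt {c a b : ℝ} (hc : 0 < c) (h : Same c a b) : a < -c ↔ b < -c := by
  rw [← not_le, ← not_le, (h (-c) ⟨le_rfl, by linarith⟩).2]

theorem same_of_lt {c a b : ℝ} (ha : a < -c) (hb : b < -c) : Same c a b := fun r hr =>
  ⟨iff_of_true (by linarith [hr.1]) (by linarith [hr.1]),
    iff_of_false (by linarith [hr.1]) (by linarith [hr.1])⟩

theorem neg_mem {c a : ℝ} (h : a ∈ ({-c, c} : Set ℝ)) : -a ∈ ({-c, c} : Set ℝ) := by
  rcases h with rfl | rfl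
  · exact Or.inr (neg_neg _)
  · exact Or.inl rfl

theorem abs_of_mem {c a : ℝ} (hc : 0 < c) (h : a ∈ ({-c, c} : Set ℝ)) : |a| ≤ c := by
  rcases h with rfl | rfl
  · rw [abs_neg, abs_of_pos hc]
  · rw [abs_of_pos hc]

section sets

variable {E ι : Type}

/-- the part below the band -/
def low (X : Set E) (u : E → ℝ) (c : ℝ) : Set E := {x ∈ X | u x ≤ -c}

/-- its boundary -/
def lowB (C B : Set E) (u : E → ℝ) (c : ℝ) : Set E := lev C u (-c) ∪ low B u c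

/-- the boundary with all the bands -/
def nb (C B : Set E) (c : ℝ) (s : Finset ι) (v : ι → E → ℝ) : Set E :=
  B ∪ ⋃ k ∈ s, band C (v k) c

theorem lev_neg (X : Set E) (u : E → ℝ) (a : ℝ) : lev X (fun x => -u x) a = lev X u (-a) :=
  Set.ext fun _ => and_congr_right fun _ => neg_eq_iff_eq_neg

theorem band_neg (X : Set E) (u : E → ℝ) (c : ℝ) : band X (fun x => -u x) c = band X u c :=
  Set.ext fun x => and_congr_right fun _ => by rw [abs_neg]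

theorem both_neg {X : Set E} {u : E → ℝ} {c : ℝ} (h : Both X u c) : Both X (fun x => -u x) c := by
  obtain ⟨⟨p, hp, h1⟩, q, hq, h2⟩ := h
  exact ⟨⟨q, hq, by linarith⟩, p, hp, by linarith⟩

theorem nb_neg (C B : Set E) (c : ℝ) (s : Finset ι) (v : ι → E → ℝ) :
    nb C B c s (fun k x => -v k x) = nb C B c s v := by
  simp only [nb, band_neg]

theorem mem_nb {C B : Set E} {c : ℝ} {s : Finset ι} {v : ι → E → ℝ} {x : E} :
    x ∈ nb C B c s v ↔ x ∈ B ∨ ∃ k ∈ s, x ∈ band C (v k) c := by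
  simp only [nb, mem_union, mem_iUnion, exists_prop]

theorem nb_sub {C B : Set E} (h : B ⊆ C) {c : ℝ} {s : Finset ι} {v : ι → E → ℝ} :
    nb C B c s v ⊆ C := fun _ hx => by
  rcases mem_nb.1 hx with h1 | ⟨k, -, h1⟩
  exacts [h h1, h1.1]

theorem lev_sub_band {X C : Set E} (h : X ⊆ C) {u : E → ℝ} {c a : ℝ} (hc : 0 < c)
    (ha : a ∈ ({-c, c} : Set ℝ)) : lev X u a ⊆ band C u c := fun x hx =>
  ⟨h hx.1, by rw [hx.2]; exact abs_of_mem hc ha⟩

theorem nb_low {C B : Set E} (hBC : B ⊆ C) {c : ℝ} (hc : 0 < c) {s t : Finset ι}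
    {v : ι → E → ℝ} {k : ι} (hk : k ∈ s)
    (ht : ∀ j, j ∈ t ↔ j ∈ s ∧ j ≠ k ∧ (band C (v j) c ∩ low C (v k) c).Nonempty) :
    nb (low C (v k) c) (lowB C B (v k) c) c t v = nb C B c s v ∩ low C (v k) c := by
  ext x
  rw [mem_inter_iff, mem_nb, mem_nb]
  constructor
  · rintro ((h | h) | ⟨j, hj, h⟩)
    · exact ⟨Or.inr ⟨k, hk, lev_sub_band Subset.rfl hc (Or.inl rfl) h⟩, h.1, h.2.le⟩
    · exact ⟨Or.inl h.1, hBC h.1, h.2⟩
    · exact ⟨Or.inr ⟨j, ((ht j).1 hj).1, h.1.1, h.2⟩, h.1⟩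
  · rintro ⟨h | ⟨j, hj, h⟩, hl⟩
    · exact Or.inl (Or.inr ⟨h, hl.2⟩)
    · by_cases e : j = k
      · subst e
        exact Or.inl (Or.inl ⟨hl.1, le_antisymm hl.2 (abs_le.1 h.2).1⟩)
      · exact Or.inr ⟨j, (ht j).2 ⟨hj, e, x, h, hl⟩, hl, h.2⟩

/-- a property which forces `u < -c` cuts out the same sets below the band -/
theorem sep_low {C B : Set E} (hBC : B ⊆ C) {u : E → ℝ} {c : ℝ} {P : E → Prop}
    (h : ∀ x ∈ C, P x → u x < -c) : {x ∈ low C u c | P x} = {x ∈ C | P x} ∧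
      {x ∈ lowB C B u c | P x} = {x ∈ B | P x} := by
  constructor
  · ext x
    exact ⟨fun hx => ⟨hx.1.1, hx.2⟩, fun hx => ⟨⟨hx.1, (h x hx.1 hx.2).le⟩, hx.2⟩⟩
  · ext x
    constructor
    · rintro ⟨h1 | h1, h2⟩
      · exact absurd h1.2 (h x h1.1 h2).ne
      · exact ⟨h1.1, h2⟩
    · exact fun hx => ⟨Or.inr ⟨hx.1, (h x (hBC hx.1) hx.2).le⟩, hx.2⟩

theorem lev_lev (X : Set E) (u w : E → ℝ) (a b : ℝ) :
    lev (lev X u a) w b = {x ∈ X | u x = a ∧ w x = b} :=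
  Set.ext fun _ => and_assoc

end sets

variable {E F : Type} [NormedAddCommGroup E] [NormedSpace ℝ E]
  [NormedAddCommGroup F] [NormedSpace ℝ F] {ι : Type}

theorem faces_neg {n : ℕ} {C B : Set E} {c : ℝ} {s : Finset ι} {v : ι → E → ℝ}
    (h : Faces n C B c s v) : Faces n C B c s fun k x => -v k x := by
  intro k hk
  obtain ⟨h1, h2, h3⟩ := h k hk
  refine ⟨h1.neg, both_neg h2, fun a ha => ?_⟩
  rw [lev_neg, lev_neg]
  exact h3 _ (neg_mem ha)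

theorem pairs_neg {C B : Set E} {c : ℝ} {s : Finset ι} {col : ι → Bool} {v : ι → E → ℝ}
    (h : Pairs C B c s col v) : Pairs C B c s col fun k x => -v k x := by
  intro k hk j hj hne
  rcases h k hk j hj hne with h1 | ⟨h1, h2⟩
  · left; rwa [band_neg, band_neg]
  · refine Or.inr ⟨h1, fun a ha => ⟨?_, fun b hb => ?_⟩⟩
    · rw [lev_neg]; exact both_neg (h2 _ (neg_mem ha)).1
    · rw [lev_neg, lev_neg, lev_neg, lev_neg]
      exact (h2 _ (neg_mem ha)).2 _ (neg_mem hb)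

section geo

variable {C B : Set E} {c : ℝ} {u w : E → ℝ}

theorem halves (hc : 0 < c) (hC : ConBall 3 C B) (hu : ContinuousOn u C) (hb : Both B u c)
    {a : ℝ} (ha : a ∈ ({-c, c} : Set ℝ)) (hl : ConBall 2 (lev C u a) (lev B u a)) :
    ConBall 3 {x ∈ C | u x ≤ a} (lev C u a ∪ {x ∈ B | u x ≤ a}) ∧
    ConBall 3 {x ∈ C | a ≤ u x} (lev C u a ∪ {x ∈ B | a ≤ u x}) := by
  obtain ⟨⟨p, hp, h1⟩, q, hq, h2⟩ := hb
  have := abs_le.1 (abs_of_mem hc ha)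
  exact side2 hC hu hl ⟨p, hC.1 hp, by linarith⟩ ⟨q, hC.1 hq, by linarith⟩

theorem band_conn (hc : 0 < c) (hC : ConBall 3 C B) (hu : ContinuousOn u C) (hb : Both B u c)
    (hl : ∀ a ∈ ({-c, c} : Set ℝ), ConBall 2 (lev C u a) (lev B u a)) :
    IsPreconnected (band C u c) := by
  have h1 := (halves hc hC hu hb (Or.inr rfl) (hl c (Or.inr rfl))).1
  have hlt : -c < c := by linarith
  obtain ⟨q, hq⟩ := KeepAux.ne (hl c (Or.inr rfl))
  obtain ⟨⟨p, hp, hp'⟩, -⟩ := hb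
  have h2 := (side2 (u := u) (a := -c) h1 (hu.mono fun x hx => hx.1)
    (by rw [KeepAux.lev hlt, lev, KeepAux.lev' hlt]; exact hl _ (Or.inl rfl))
    ⟨p, ⟨hC.1 hp, by linarith⟩, hp'⟩ ⟨q, ⟨hq.1, hq.2.le⟩, hlt.trans_eq hq.2.symm⟩).2
  convert h2.isConnected.isPreconnected using 1
  ext x
  exact ⟨fun hx => ⟨⟨hx.1, (abs_le.1 hx.2).2⟩, (abs_le.1 hx.2).1⟩,
    fun hx => ⟨hx.1.1, abs_le.2 ⟨hx.2, hx.1.2⟩⟩⟩

omit [NormedSpace ℝ E] in
/-- a connected set off the band lies on one side -/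
theorem one_side (hc : 0 < c) {P : Set E} (hP : IsPreconnected P) (hPC : P ⊆ C)
    (hu : ContinuousOn u C) (hd : Disjoint P (band C u c)) :
    (∀ x ∈ P, u x < -c) ∨ ∀ x ∈ P, c < u x := by
  have hout : ∀ x ∈ P, u x < -c ∨ c < u x := fun x hx => by
    by_contra hn
    rw [not_or, not_lt, not_lt] at hn
    exact Set.disjoint_left.1 hd hx ⟨hPC hx, abs_le.2 hn⟩
  by_cases h : ∃ x ∈ P, u x < -c
  · obtain ⟨x, hx, hx'⟩ := h
    refine Or.inl fun y hy => sign_const hP (hu.mono hPC) (fun z hz e => ?_) hx hy hx'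
    rcases hout z hz with h1 | h1 <;> linarith
  · exact Or.inr fun y hy => (hout y hy).resolve_left fun h1 => h ⟨y, hy, h1⟩

omit [NormedSpace ℝ E] in
/-- witnesses on the new boundary -/
theorem both_low {D : Set E} (hD : IsPreconnected D) (hDC : D ⊆ C) (hu : ContinuousOn u C)
    (hs : (∀ x ∈ C, -c ≤ u x → w x < -c) ∨ ∀ x ∈ C, -c ≤ u x → c < w x) (hc : 0 < c)
    (hBC : B ⊆ C) (hb : Both (D ∩ B) w c) : Both (D ∩ lowB C B u c) w c := by
  obtain ⟨⟨p, hp, h1⟩, q, hq, h2⟩ := hb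
  have key : ∀ {p q : E}, p ∈ D → q ∈ D ∩ B → u p < -c →
      q ∈ D ∩ lowB C B u c ∨ ∃ z ∈ D ∩ lowB C B u c, -c ≤ u z := by
    intro p q hp hq h
    rcases le_total (u q) (-c) with h3 | h3
    · exact Or.inl ⟨hq.1, Or.inr ⟨hq.2, h3⟩⟩
    · obtain ⟨z, hz, hz2⟩ := hD.intermediate_value hp hq.1 (hu.mono hDC) ⟨h.le, h3⟩
      exact Or.inr ⟨z, ⟨hz, Or.inl ⟨hDC hz, hz2⟩⟩, hz2.ge⟩
  rcases hs with hs | hs
  · have h3 : u q < -c := not_le.1 fun h => by linarith [hs q (hBC hq.2) h]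
    refine ⟨?_, q, ⟨hq.1, Or.inr ⟨hq.2, h3.le⟩⟩, h2⟩
    rcases key hq.1 hp h3 with h4 | ⟨z, hz, h4⟩
    exacts [⟨p, h4, h1⟩, ⟨z, hz, hs z (hDC hz.1) h4⟩]
  · have h3 : u p < -c := not_le.1 fun h => by linarith [hs p (hBC hp.2) h]
    refine ⟨⟨p, ⟨hp.1, Or.inr ⟨hp.2, h3.le⟩⟩, h1⟩, ?_⟩
    rcases key hp.1 hq h3 with h4 | ⟨z, hz, h4⟩
    exacts [⟨q, h4, h2⟩, ⟨z, hz, hs z (hDC hz.1) h4⟩]

end geo

section step

variable {C B : Set E} {c : ℝ} {s t : Finset ι} {col : ι → Bool} {v : ι → E → ℝ} {k : ι}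

theorem ball_low (hc : 0 < c) (hC : ConBall 3 C B) (hF : Faces 2 C B c s v) (hk : k ∈ s) :
    ConBall 3 (low C (v k) c) (lowB C B (v k) c) :=
  (halves hc hC (hF k hk).1 (hF k hk).2.1 (Or.inl rfl) ((hF k hk).2.2 _ (Or.inl rfl))).1

theorem below (hc : 0 < c) (hC : ConBall 3 C B) (hF : Faces 2 C B c s v) (hk : k ∈ s) {j : ι}
    (hj : j ∈ s) (hd : Disjoint (band C (v j) c) (band C (v k) c))
    (hm : (band C (v j) c ∩ low C (v k) c).Nonempty) :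
    (∀ x ∈ band C (v j) c, v k x < -c) ∧
    ((∀ x ∈ C, -c ≤ v k x → v j x < -c) ∨ ∀ x ∈ C, -c ≤ v k x → c < v j x) := by
  have h1 : ∀ x ∈ band C (v j) c, v k x < -c := by
    refine (one_side hc (band_conn hc hC (hF j hj).1 (hF j hj).2.1 (hF j hj).2.2)
      (fun x hx => hx.1) (hF k hk).1 hd).resolve_right fun h => ?_
    obtain ⟨x, hx, hx'⟩ := hm
    linarith [h x hx, hx'.2]
  refine ⟨h1, ?_⟩
  have h2 := (halves hc hC (hF k hk).1 (hF k hk).2.1 (Or.inl rfl)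
    ((hF k hk).2.2 _ (Or.inl rfl))).2
  rcases one_side hc h2.isConnected.isPreconnected (fun x hx => hx.1) (hF j hj).1
    (Set.disjoint_left.2 fun x hx hx' => absurd hx.2 (not_le.2 (h1 x hx'))) with h | h
  exacts [Or.inl fun x hx hx' => h x ⟨hx, hx'⟩, Or.inr fun x hx hx' => h x ⟨hx, hx'⟩]

theorem faces_low (hc : 0 < c) (hC : ConBall 3 C B) (hF : Faces 2 C B c s v)
    (hP : Pairs C B c s col v) (hk : k ∈ s)
    (ht : ∀ j, j ∈ t ↔ j ∈ s ∧ j ≠ k ∧ (band C (v j) c ∩ low C (v k) c).Nonempty) :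
    Faces 2 (low C (v k) c) (lowB C B (v k) c) c t v := by
  intro j hj
  obtain ⟨hjs, hjk, hm⟩ := (ht j).1 hj
  obtain ⟨f1, f2, f3⟩ := hF j hjs
  refine ⟨f1.mono fun x hx => hx.1, ?_⟩
  by_cases hd : Disjoint (band C (v j) c) (band C (v k) c)
  · obtain ⟨h1, h2⟩ := below hc hC hF hk hjs hd hm
    constructor
    · have := both_low hC.isConnected.isPreconnected Subset.rfl (hF k hk).1 h2 hc hC.1
        (by rwa [inter_eq_right.2 hC.1])
      exact ⟨this.1.imp fun x hx => ⟨hx.1.2, hx.2⟩, this.2.imp fun x hx => ⟨hx.1.2, hx.2⟩⟩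
    · intro a ha
      obtain ⟨e1, e2⟩ := sep_low hC.1 (u := v k) (c := c) (P := fun x => v j x = a)
        fun x hx hx' => h1 x (lev_sub_band Subset.rfl hc ha ⟨hx, hx'⟩)
      rw [lev, lev, e1, e2]
      exact f3 a ha
  · obtain ⟨-, p1⟩ := (hP j hjs k hk hjk).resolve_left hd
    obtain ⟨-, p2⟩ := (hP k hk j hjs hjk.symm).resolve_left fun h => hd h.symm
    constructor
    · obtain ⟨⟨p, hp, h1⟩, q, hq, h2⟩ := (p2 _ (Or.inl rfl)).1
      exact ⟨⟨p, Or.inr ⟨hp.1, hp.2.le⟩, h1⟩, q, Or.inr ⟨hq.1, hq.2.le⟩, h2⟩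
    · intro a ha
      obtain ⟨⟨⟨p, hp, h1⟩, q, hq, h2⟩, p3⟩ := p1 a ha
      have := (side1 (u := v k) (a := -c) (f3 a ha) ((hF k hk).1.mono fun x hx => hx.1)
        (p3 _ (Or.inl rfl)) ⟨p, ⟨hC.1 hp.1, hp.2⟩, h1⟩
        ⟨q, ⟨hC.1 hq.1, hq.2⟩, by linarith⟩).1
      convert this using 1
      · ext x
        exact ⟨fun hx => ⟨⟨hx.1.1, hx.2⟩, hx.1.2⟩, fun hx => ⟨⟨hx.1.1, hx.2⟩, hx.1.2⟩⟩
      · ext x
        constructor
        · rintro ⟨h | h, hx⟩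
          exacts [Or.inl ⟨⟨h.1, hx⟩, h.2⟩, Or.inr ⟨⟨h.1, hx⟩, h.2⟩]
        · rintro (h | h)
          exacts [⟨Or.inl ⟨h.1.1, h.2⟩, h.1.2⟩, ⟨Or.inr ⟨h.1.1, h.2⟩, h.1.2⟩]

theorem pairs_low (hc : 0 < c) (hC : ConBall 3 C B) (hF : Faces 2 C B c s v)
    (hP : Pairs C B c s col v) (hk : k ∈ s)
    (ht : ∀ j, j ∈ t ↔ j ∈ s ∧ j ≠ k ∧ (band C (v j) c ∩ low C (v k) c).Nonempty) :
    Pairs (low C (v k) c) (lowB C B (v k) c) c t col v := by
  intro i hi j hj hij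
  obtain ⟨his, hik, hmi⟩ := (ht i).1 hi
  obtain ⟨hjs, hjk, hmj⟩ := (ht j).1 hj
  rcases hP i his j hjs hij with h | ⟨h1, h2⟩
  · exact Or.inl (Set.disjoint_left.2 fun x hx hx' =>
      Set.disjoint_left.1 h ⟨hx.1.1, hx.2⟩ ⟨hx'.1.1, hx'.2⟩)
  refine Or.inr ⟨h1, fun a ha => ?_⟩
  obtain ⟨h3, h4⟩ := h2 a ha
  have hcol : col i = col k ∨ col j = col k := by
    revert h1
    cases col i <;> cases col j <;> cases col k <;> simp
  have hlines : (∀ b ∈ ({-c, c} : Set ℝ), ∀ x ∈ C, v i x = a ∧ v j x = b → v k x < -c) →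
      ∀ b ∈ ({-c, c} : Set ℝ), ConBall 1 (lev (lev (low C (v k) c) (v i) a) (v j) b)
        (lev (lev (lowB C B (v k) c) (v i) a) (v j) b) := by
    intro H b hb
    obtain ⟨e1, e2⟩ := sep_low hC.1 (H b hb)
    rw [lev_lev, lev_lev, e1, e2, ← lev_lev, ← lev_lev]
    exact h4 b hb
  rcases hcol with e | e
  · have hd := (hP i his k hk hik).resolve_right fun h => h.1 e
    obtain ⟨g1, -⟩ := below hc hC hF hk his hd hmi
    refine ⟨?_, hlines fun b _ x hx hx' => g1 x (lev_sub_band Subset.rfl hc ha ⟨hx, hx'.1⟩)⟩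
    obtain ⟨-, e2⟩ := sep_low hC.1 (u := v k) (c := c) (P := fun x => v i x = a)
      fun x hx hx' => g1 x (lev_sub_band Subset.rfl hc ha ⟨hx, hx'⟩)
    rw [lev, e2]
    exact h3
  · have hd := (hP j hjs k hk hjk).resolve_right fun h => h.1 e
    obtain ⟨g1, g2⟩ := below hc hC hF hk hjs hd hmj
    refine ⟨?_, hlines fun b hb x hx hx' => g1 x (lev_sub_band Subset.rfl hc hb ⟨hx, hx'.2⟩)⟩
    have := both_low ((hF i his).2.2 a ha).isConnected.isPreconnected (fun x hx => hx.1)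
      (hF k hk).1 g2 hc hC.1 ⟨h3.1.imp fun x hx => ⟨⟨⟨hC.1 hx.1.1, hx.1.2⟩, hx.1.1⟩, hx.2⟩,
        h3.2.imp fun x hx => ⟨⟨⟨hC.1 hx.1.1, hx.1.2⟩, hx.1.1⟩, hx.2⟩⟩
    exact ⟨this.1.imp fun x hx => ⟨⟨hx.1.2, hx.1.1.2⟩, hx.2⟩,
      this.2.imp fun x hx => ⟨⟨hx.1.2, hx.1.1.2⟩, hx.2⟩⟩

theorem nb_closed (hC : ConBall 3 C B) (hF : Faces 2 C B c s v) : IsClosed (nb C B c s v) :=
  hC.isCompact_bdry.isClosed.union (isClosed_biUnion_finset fun k hk =>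
    ((hF k hk).1.abs).preimage_isClosed_of_isClosed hC.isClosed (isClosed_Iic (a := c)))

end step

/-- the extension statement for families with at most `n` members -/
def EXT (E F : Type) [NormedAddCommGroup E] [NormedSpace ℝ E] [NormedAddCommGroup F]
    [NormedSpace ℝ F] {ι : Type} (col : ι → Bool) (c : ℝ) (n : ℕ) : Prop :=
  ∀ (s : Finset ι) {C B N : Set E} {C' B' N' : Set F} (v : ι → E → ℝ) (v' : ι → F → ℝ)
    (ψ : ConHomeo N N'), s.card ≤ n → N = nb C B c s v → N' = nb C' B' c s v' →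
    ConBall 3 C B → ConBall 3 C' B' → Faces 2 C B c s v → Faces 2 C' B' c s v' →
    Pairs C B c s col v → Pairs C' B' c s col v' →
    (∀ x ∈ N, (ψ.toFun x ∈ B' ↔ x ∈ B) ∧ ∀ k ∈ s, Same c (v' k (ψ.toFun x)) (v k x)) →
    ∃ Φ : ConHomeo C C', EqOn Φ.toFun ψ.toFun N

theorem img_low {c : ℝ} (hc : 0 < c) {C N : Set E} {C' N' : Set F} (ψ : ConHomeo N N')
    {u : E → ℝ} {u' : F → ℝ} (h1 : N ⊆ C) (h2 : N' ⊆ C')
    (h : ∀ x ∈ N, Same c (u' (ψ.toFun x)) (u x)) :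
    ψ.toFun '' (N ∩ low C u c) = N' ∩ low C' u' c := by
  ext y
  constructor
  · rintro ⟨x, hx, rfl⟩
    exact ⟨ψ.mapsTo hx.1, h2 (ψ.mapsTo hx.1), (same_le hc (h x hx.1)).2 hx.2.2⟩
  · intro hy
    have hx := ψ.mapsTo_inv hy.1
    refine ⟨_, ⟨hx, h1 hx, (same_le hc (h _ hx)).1 ?_⟩, ψ.right_inv hy.1⟩
    rw [ψ.right_inv hy.1]; exact hy.2.2

theorem half {col : ι → Bool} {c : ℝ} {n : ℕ} (hc : 0 < c) (ih : EXT E F col c n) {s : Finset ι}
    {C B N : Set E} {C' B' N' : Set F} {v : ι → E → ℝ} {v' : ι → F → ℝ} (ψ : ConHomeo N N')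
    (hn : s.card ≤ n + 1) (hN : N = nb C B c s v) (hN' : N' = nb C' B' c s v')
    (hC : ConBall 3 C B) (hC' : ConBall 3 C' B') (hF : Faces 2 C B c s v)
    (hF' : Faces 2 C' B' c s v') (hP : Pairs C B c s col v) (hP' : Pairs C' B' c s col v')
    (hψ : ∀ x ∈ N, (ψ.toFun x ∈ B' ↔ x ∈ B) ∧ ∀ k ∈ s, Same c (v' k (ψ.toFun x)) (v k x))
    {k : ι} (hk : k ∈ s) : ∃ Φ : ConHomeo (low C (v k) c) (low C' (v' k) c),
      EqOn Φ.toFun ψ.toFun (N ∩ low C (v k) c) := by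
  classical
  have sN : N ⊆ C := hN ▸ nb_sub hC.1
  have sN' : N' ⊆ C' := hN' ▸ nb_sub hC'.1
  set t := (s.erase k).filter fun j => (band C (v j) c ∩ low C (v k) c).Nonempty with htd
  have ht : ∀ j, j ∈ t ↔ j ∈ s ∧ j ≠ k ∧ (band C (v j) c ∩ low C (v k) c).Nonempty := by
    intro j
    rw [htd, Finset.mem_filter, Finset.mem_erase]
    tauto
  have ht' : ∀ j, j ∈ t ↔ j ∈ s ∧ j ≠ k ∧ (band C' (v' j) c ∩ low C' (v' k) c).Nonempty := by
    intro j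
    rw [ht]
    refine and_congr_right fun hj => and_congr_right fun _ => ⟨?_, ?_⟩
    · rintro ⟨x, h1, h2⟩
      have hx : x ∈ N := hN ▸ mem_nb.2 (Or.inr ⟨j, hj, h1⟩)
      exact ⟨ψ.toFun x, ⟨sN' (ψ.mapsTo hx), (same_abs hc ((hψ x hx).2 j hj)).2 h1.2⟩,
        sN' (ψ.mapsTo hx), (same_le hc ((hψ x hx).2 k hk)).2 h2.2⟩
    · rintro ⟨y, h1, h2⟩
      have hy : y ∈ N' := hN' ▸ mem_nb.2 (Or.inr ⟨j, hj, h1⟩)
      have hx := ψ.mapsTo_inv hy
      have e := ψ.right_inv hy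
      refine ⟨_, ⟨sN hx, (same_abs hc ((hψ _ hx).2 j hj)).1 ?_⟩, sN hx,
        (same_le hc ((hψ _ hx).2 k hk)).1 ?_⟩
      · rw [e]; exact h1.2
      · rw [e]; exact h2.2
  have b1 := ball_low hc hC hF hk
  have hcard : t.card ≤ n := by
    have h1 : t.card ≤ (s.erase k).card := Finset.card_filter_le _ _
    rw [Finset.card_erase_of_mem hk] at h1
    omega
  exact ih t v v' ((ψ.restr (ψ.conicalSet_left.inter b1.conicalSet) inter_subset_left).cast rfl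
    (img_low hc ψ sN sN' fun x hx => (hψ x hx).2 k hk)) hcard
    (by rw [nb_low hC.1 hc hk ht, hN]) (by rw [nb_low hC'.1 hc hk ht', hN']) b1
    (ball_low hc hC' hF' hk) (faces_low hc hC hF hP hk ht) (faces_low hc hC' hF' hP' hk ht')
    (pairs_low hc hC hF hP hk ht) (pairs_low hc hC' hF' hP' hk ht') fun x hx =>
      ⟨or_congr ⟨fun h => ⟨sN hx.1, (same_eq hc ((hψ x hx.1).2 k hk)).1 h.2⟩,
        fun h => ⟨sN' (ψ.mapsTo hx.1), (same_eq hc ((hψ x hx.1).2 k hk)).2 h.2⟩⟩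
        (and_congr (hψ x hx.1).1 (same_le hc ((hψ x hx.1).2 k hk))),
      fun j hj => (hψ x hx.1).2 j ((ht j).1 hj).1⟩

theorem cover {E : Type} {C N : Set E} {u : E → ℝ} {c : ℝ} (h1 : N ⊆ C)
    (h2 : band C u c ⊆ N) : N ∪ low C u c ∪ low C (fun x => -u x) c = C := by
  refine Subset.antisymm (union_subset (union_subset h1 fun x hx => hx.1) fun x hx => hx.1)
    fun x hx => ?_
  rcases le_total (u x) (-c) with h | h
  · exact Or.inl (Or.inr ⟨hx, h⟩)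
  rcases le_total (u x) c with h' | h'
  · exact Or.inl (Or.inl (h2 ⟨hx, abs_le.2 ⟨h, h'⟩⟩))
  · exact Or.inr ⟨hx, neg_le_neg h'⟩

theorem apart {E : Type} {C N : Set E} {u : E → ℝ} {c : ℝ} (hc : 0 < c) :
    (N ∪ low C u c) ∩ low C (fun x => -u x) c ⊆ N ∩ low C (fun x => -u x) c := by
  rintro x ⟨h | h, h'⟩
  · exact ⟨h, h'⟩
  · have h1 : u x ≤ -c := h.2
    have h2 : -u x ≤ -c := h'.2
    linarith

theorem ext (col : ι → Bool) {c : ℝ} (hc : 0 < c) (n : ℕ) : EXT E F col c n := by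
  have base : ∀ {C B N : Set E} {C' B' N' : Set F} (v : ι → E → ℝ) (v' : ι → F → ℝ)
      (ψ : ConHomeo N N'), N = nb C B c ∅ v → N' = nb C' B' c ∅ v' → ConBall 3 C B →
      ConBall 3 C' B' → ∃ Φ : ConHomeo C C', EqOn Φ.toFun ψ.toFun N := by
    intro C B N C' B' N' v v' ψ hN hN' hC hC'
    have e : N = B := by simp [hN, nb]
    have e' : N' = B' := by simp [hN', nb]
    obtain ⟨Φ, h, -⟩ := hC.exists_extend hC' (ψ.cast e e')
    exact ⟨Φ, fun x hx => h (e ▸ hx)⟩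
  induction n with
  | zero =>
    intro s C B N C' B' N' v v' ψ hn hN hN' hC hC' _ _ _ _ _
    obtain rfl : s = ∅ := Finset.card_eq_zero.1 (Nat.le_zero.1 hn)
    exact base v v' ψ hN hN' hC hC'
  | succ n ih =>
    intro s C B N C' B' N' v v' ψ hn hN hN' hC hC' hF hF' hP hP' hψ
    rcases s.eq_empty_or_nonempty with rfl | ⟨k, hk⟩
    · exact base v v' ψ hN hN' hC hC'
    have sN : N ⊆ C := hN ▸ nb_sub hC.1
    have sN' : N' ⊆ C' := hN' ▸ nb_sub hC'.1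
    have cN : IsClosed N := hN ▸ nb_closed hC hF
    have cN' : IsClosed N' := hN' ▸ nb_closed hC' hF'
    obtain ⟨Φ₁, e₁⟩ := half hc ih ψ hn hN hN' hC hC' hF hF' hP hP' hψ hk
    obtain ⟨Φ₂, e₂⟩ := half hc ih ψ hn (hN.trans (nb_neg _ _ _ _ _).symm)
      (hN'.trans (nb_neg _ _ _ _ _).symm) hC hC' (faces_neg hF) (faces_neg hF') (pairs_neg hP)
      (pairs_neg hP') (fun x hx => ⟨(hψ x hx).1, fun j hj => same_neg ((hψ x hx).2 j hj)⟩) hk
    have c₁ := (ball_low hc hC hF hk).isClosed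
    have c₁' := (ball_low hc hC' hF' hk).isClosed
    have c₂ := (ball_low hc hC (faces_neg hF) hk).isClosed
    have c₂' := (ball_low hc hC' (faces_neg hF') hk).isClosed
    have i₁ := (img_low hc ψ sN sN' fun x hx => (hψ x hx).2 k hk).ge
    have i₂ := (img_low (u := fun x => -v k x) (u' := fun x => -v' k x) hc ψ sN sN'
      fun x hx => same_neg ((hψ x hx).2 k hk)).ge
    have g₁ := ConHomeo.glue_left ψ Φ₁ cN c₁ cN' c₁' e₁.symm i₁
    set Ψ := ψ.glue Φ₁ cN c₁ cN' c₁' e₁.symm i₁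
    have ag : EqOn Ψ.toFun Φ₂.toFun ((N ∪ low C (v k) c) ∩ low C (fun x => -v k x) c) :=
      fun x hx => (g₁ (apart hc hx).1).trans (e₂ (apart hc hx)).symm
    have im : (N' ∪ low C' (v' k) c) ∩ low C' (fun x => -v' k x) c ⊆
        Ψ.toFun '' ((N ∪ low C (v k) c) ∩ low C (fun x => -v k x) c) := fun y hy => by
      obtain ⟨x, hx, rfl⟩ := i₂ (apart hc hy)
      exact ⟨x, ⟨Or.inl hx.1, hx.2⟩, g₁ hx.1⟩
    have g₂ := ConHomeo.glue_left Ψ Φ₂ (cN.union c₁) c₂ (cN'.union c₁') c₂' ag im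
    exact ⟨(Ψ.glue Φ₂ (cN.union c₁) c₂ (cN'.union c₁') c₂' ag im).cast
      (cover sN fun x hx => hN ▸ mem_nb.2 (Or.inr ⟨k, hk, hx⟩))
      (cover sN' fun x hx => hN' ▸ mem_nb.2 (Or.inr ⟨k, hk, hx⟩)),
      fun x hx => (g₂ (Or.inl hx)).trans (g₁ hx)⟩

/-- an extension keeps the lower side of a band -/
theorem keep_lt {c : ℝ} (hc : 0 < c) {C B N : Set E} {C' N' : Set F} {u : E → ℝ} {u' : F → ℝ}
    (ψ : ConHomeo N N') (Φ : ConHomeo C C') (he : EqOn Φ.toFun ψ.toFun N) (hN : N ⊆ C)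
    (hBN : B ⊆ N) (hb : band C' u' c ⊆ N') (hl : ConBall 3 (low C u c) (lowB C B u c))
    (hu' : ContinuousOn u' C') (hp : ∃ x ∈ B, u x < -c)
    (h : ∀ x ∈ N, Same c (u' (ψ.toFun x)) (u x)) {x : E} (hx : x ∈ C) (hux : u x < -c) :
    u' (Φ.toFun x) < -c := by
  obtain ⟨p, hp, hp'⟩ := hp
  have hP := preconn_diff hl (subset_union_left (s := lev C u (-c)))
  have hlt : ∀ z ∈ low C u c \ lev C u (-c), u z < -c := fun z hz =>
    lt_of_le_of_ne hz.1.2 fun e => hz.2 ⟨hz.1.1, e⟩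
  refine sign_const (u := fun z => u' (Φ.toFun z)) hP
    (hu'.comp (Φ.cont.mono fun z hz => hz.1.1) fun z hz => Φ.mapsTo hz.1.1) (fun z hz e => ?_)
    (x := p) ⟨⟨hN (hBN hp), hp'.le⟩, fun h1 => hp'.ne h1.2⟩ ⟨⟨hx, hux.le⟩, fun h1 => hux.ne h1.2⟩ ?_
  · have h1 : Φ.toFun z ∈ N' := hb ⟨Φ.mapsTo hz.1.1, by rw [e, abs_neg, abs_of_pos hc]⟩
    have h2 := ψ.mapsTo_inv h1
    have h3 : ψ.invFun (Φ.toFun z) = z :=
      Φ.injOn (hN h2) hz.1.1 ((he h2).trans (ψ.right_inv h1))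
    rw [h3] at h2
    rw [he h2] at e
    exact (hlt z hz).ne ((same_eq hc (h z h2)).1 e)
  · show u' (Φ.toFun p) < -c
    rw [he (hBN hp)]
    exact (same_lt hc (h p (hBN hp))).2 hp'

end FillcAux

open FillcAux

theorem fillc : FILLC := by
  intro E F _ _ _ _ ι s col C B C' B' c v v' ψ hc hC hC' hF hF' hP hP' hψ
  obtain ⟨Φ, he⟩ := ext col hc s.card s v v' ψ le_rfl rfl rfl hC hC' hF hF' hP hP' hψ
  refine ⟨Φ, he, fun x hx k hk => ?_⟩
  have sN : nb C B c s v ⊆ C := nb_sub hC.1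
  have hb : band C' (v' k) c ⊆ nb C' B' c s v' := fun y hy => mem_nb.2 (Or.inr ⟨k, hk, hy⟩)
  rcases lt_or_ge (v k x) (-c) with h | h
  · exact same_of_lt (keep_lt hc ψ Φ he sN subset_union_left hb (ball_low hc hC hF hk)
      (hF' k hk).1 (hF k hk).2.1.1 (fun y hy => (hψ y hy).2 k hk) hx h) h
  rcases le_or_gt (v k x) c with h' | h'
  · have hN : x ∈ nb C B c s v := mem_nb.2 (Or.inr ⟨k, hk, hx, abs_le.2 ⟨h, h'⟩⟩)
    rw [he hN]
    exact (hψ x hN).2 k hk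
  · have := same_neg (same_of_lt (keep_lt (u := fun x => -v k x) (u' := fun x => -v' k x) hc ψ Φ he
      sN subset_union_left (by rwa [band_neg]) (ball_low hc hC (faces_neg hF) hk)
      (hF' k hk).1.neg (both_neg (hF k hk).2.1).1 (fun y hy => same_neg ((hψ y hy).2 k hk)) hx
      (neg_lt_neg h')) (neg_lt_neg h'))
    rwa [neg_neg, neg_neg] at this

end P073.Fl
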