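import Vale.Agent.P073Y.Fl.Sk
import Vale.Agent.P073Y.Cut.One

/-!
# Flattening of bands: assembly from tubes, strips and columns
-/

open Set Metric Topology Filter

namespace P073.Fl

namespace FlatA

section same

variable {c a b d : ℝ}

theorem s_of_eq (h : a = b) : Same c a b := by
  subst h
  exact fun _ _ => ⟨Iff.rfl, Iff.rfl⟩

theorem s_symm (h : Same c a b) : Same c b a := fun r hr => ⟨(h r hr).1.symm, (h r hr).2.symm⟩

theorem s_trans (h : Same c a b) (g : Same c b d) : Same c a d :=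
  fun r hr => ⟨(h r hr).1.trans (g r hr).1, (h r hr).2.trans (g r hr).2⟩

theorem s_eq (h : Same c a b) (hb : |b| ≤ c) : a = b :=
  le_antisymm ((h b (abs_le.1 hb)).1.2 le_rfl) ((h b (abs_le.1 hb)).2.2 le_rfl)

theorem s_abs (h : Same c a b) : |a| ≤ c ↔ |b| ≤ c :=
  ⟨fun ha => s_eq (s_symm h) ha ▸ ha, fun hb => s_eq h hb ▸ hb⟩

theorem s_lo (ha : a < -c) (hb : b < -c) : Same c a b := fun _ hr =>
  ⟨iff_of_true (ha.le.trans hr.1) (hb.le.trans hr.1),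
    iff_of_false (not_le.2 (ha.trans_le hr.1)) (not_le.2 (hb.trans_le hr.1))⟩

theorem s_hi (ha : c < a) (hb : c < b) : Same c a b := fun _ hr =>
  ⟨iff_of_false (not_le.2 (hr.2.trans_lt ha)) (not_le.2 (hr.2.trans_lt hb)),
    iff_of_true (hr.2.trans ha.le) (hr.2.trans hb.le)⟩

end same

variable {E F : Type} [NormedAddCommGroup E] [NormedSpace ℝ E]
  [NormedAddCommGroup F] [NormedSpace ℝ F] {ι : Type}

omit [NormedSpace ℝ E] in
/-- a function which misses `[-c, c]` on a connected set has a constant position -/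
theorem miss {P : Set E} {u : E → ℝ} {c : ℝ} (hc : 0 < c) (hP : IsPreconnected P)
    (hu : ContinuousOn u P) (hn : ∀ x ∈ P, ¬ |u x| ≤ c) {x y : E} (hx : x ∈ P) (hy : y ∈ P) :
    Same c (u x) (u y) := by
  have h0 : ∀ z ∈ P, u z ≠ 0 := fun z hz h => hn z hz (by rw [h, abs_zero]; exact hc.le)
  have alt : ∀ z ∈ P, u z < -c ∨ c < u z := fun z hz => by
    rcases lt_abs.1 (not_le.1 (hn z hz)) with h | h
    · exact Or.inr h
    · exact Or.inl (by linarith)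
  rcases alt x hx with h | h <;> rcases alt y hy with g | g
  · exact s_lo h g
  · have := Cut.sign_const hP hu h0 hx hy (by linarith)
    linarith
  · have := Cut.sign_const hP hu h0 hy hx (by linarith)
    linarith
  · exact s_hi h g

/-- gluing of one map with a finite family -/
theorem glue_fs (s : Finset ι) {A : Set E} {A' : Set F} (φ : ConHomeo A A') (X : ι → Set E)
    (X' : ι → Set F) (f : ι → E → F) (hA : IsClosed A) (hA' : IsClosed A')
    (hX : ∀ i ∈ s, IsClosed (X i) ∧ IsClosed (X' i))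
    (hf : ∀ i ∈ s, ∃ χ : ConHomeo (X i) (X' i), EqOn χ.toFun (f i) (X i))
    (a₁ : ∀ i ∈ s, EqOn (f i) φ.toFun (X i ∩ A))
    (a₂ : ∀ i ∈ s, ∀ j ∈ s, EqOn (f i) (f j) (X i ∩ X j))
    (r₁ : ∀ i ∈ s, ∀ x ∈ A, φ.toFun x ∈ X' i → x ∈ X i)
    (r₂ : ∀ i ∈ s, ∀ x ∈ X i, f i x ∈ A' → x ∈ A)
    (r₃ : ∀ i ∈ s, ∀ j ∈ s, ∀ x ∈ X i, f i x ∈ X' j → x ∈ X j) :
    ∃ Φ : ConHomeo (A ∪ ⋃ i ∈ s, X i) (A' ∪ ⋃ i ∈ s, X' i), EqOn Φ.toFun φ.toFun A ∧
      ∀ i ∈ s, EqOn Φ.toFun (f i) (X i) := by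
  choose χ hχ using hf
  let Y : Option s → Set E := fun o => o.elim A fun i => X i
  let Y' : Option s → Set F := fun o => o.elim A' fun i => X' i
  let h : ∀ o, ConHomeo (Y o) (Y' o) := fun o =>
    match o with
    | none => φ
    | some i => χ i i.2
  have c₁ : ∀ o, IsClosed (Y o) := by
    rintro (_ | i)
    · exact hA
    · exact (hX i i.2).1
  have c₂ : ∀ o, IsClosed (Y' o) := by
    rintro (_ | i)
    · exact hA'
    · exact (hX i i.2).2
  have ag : ∀ o p, EqOn (h o).toFun (h p).toFun (Y o ∩ Y p) := by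
    rintro (_ | i) (_ | j) x hx
    · rfl
    · exact ((hχ j j.2 hx.2).trans (a₁ j j.2 ⟨hx.2, hx.1⟩)).symm
    · exact (hχ i i.2 hx.1).trans (a₁ i i.2 hx)
    · exact (hχ i i.2 hx.1).trans ((a₂ i i.2 j j.2 hx).trans (hχ j j.2 hx.2).symm)
  have rf : ∀ o p, ∀ x ∈ Y o, (h o).toFun x ∈ Y' p → x ∈ Y p := by
    rintro (_ | i) (_ | j) x hx hy
    · exact hx
    · exact r₁ j j.2 x hx hy
    · exact r₂ i i.2 x hx (hχ i i.2 hx ▸ hy)
    · exact r₃ i i.2 j j.2 x hx (hχ i i.2 hx ▸ hy)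
  have im : ∀ o p, Y' o ∩ Y' p ⊆ (h o).toFun '' (Y o ∩ Y p) := by
    intro o p y hy
    have h1 := (h o).mapsTo_inv hy.1
    have h2 := (h o).right_inv hy.1
    exact ⟨_, ⟨h1, rf o p _ h1 (h2.symm ▸ hy.2)⟩, h2⟩
  obtain ⟨Φ, hΦ⟩ := ConHomeo.exists_glue_family (RelLF.of_finite c₁) (RelLF.of_finite c₂) h ag im
  have e₁ : ⋃ o, Y o = A ∪ ⋃ i ∈ s, X i := by
    rw [iUnion_option]
    exact congrArg (A ∪ ·) (iUnion_subtype (fun i => i ∈ s) fun i => X i)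
  have e₂ : ⋃ o, Y' o = A' ∪ ⋃ i ∈ s, X' i := by
    rw [iUnion_option]
    exact congrArg (A' ∪ ·) (iUnion_subtype (fun i => i ∈ s) fun i => X' i)
  exact ⟨Φ.cast e₁ e₂, (hΦ none).1, fun i hi x hx => ((hΦ (some ⟨i, hi⟩)).1 hx).trans (hχ i hi hx)⟩

section cfg

variable {s : Finset ι} {col : ι → Bool} {C B : Set E} {C' B' : Set F} {c : ℝ} {v : ι → E → ℝ}
  {v' : ι → F → ℝ}

theorem band_closed (h : Cfg C B c s col v) {k : ι} (hk : k ∈ s) :
    IsClosed (band C (v k) c) := by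
  obtain ⟨κ, -⟩ := h.chart k hk
  exact (κ.isCompact_right ((h.disc k hk).isCompact.prod isCompact_Icc)).isClosed

theorem band_conn (h : Cfg C B c s col v) {k : ι} (hk : k ∈ s) :
    IsPreconnected (band C (v k) c) := by
  obtain ⟨κ, -⟩ := h.chart k hk
  rw [← κ.image_eq]
  exact ((h.disc k hk).isConnected.isPreconnected.prod isPreconnected_Icc).image _ κ.cont

theorem col_ne (h : Cfg C B c s col v) {k j : ι} (hk : k ∈ s) (hj : j ∈ s) (hkj : k ≠ j)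
    (hx : ¬ Disjoint (band C (v k) c) (band C (v j) c)) : col k ≠ col j :=
  ((h.pair k hk j hj hkj).resolve_left hx).1

theorem disj_of_col (h : Cfg C B c s col v) {k j : ι} (hk : k ∈ s) (hj : j ∈ s) (hkj : k ≠ j)
    (hc : col k = col j) : Disjoint (band C (v k) c) (band C (v j) c) := by
  by_contra hx
  exact col_ne h hk hj hkj hx hc

/-- position of a band relative to a disjoint band -/
theorem far (φ : ConHomeo B B') (h : Cfg C B c s col v) (h' : Cfg C' B' c s col v')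
    (hφ : ∀ x ∈ B, ∀ k ∈ s, Same c (v' k (φ.toFun x)) (v k x)) {i j : ι} (hi : i ∈ s) (hj : j ∈ s)
    (d : Disjoint (band C (v i) c) (band C (v j) c))
    (d' : Disjoint (band C' (v' i) c) (band C' (v' j) c)) {x : E} {y : F}
    (hx : x ∈ band C (v i) c) (hy : y ∈ band C' (v' i) c) : Same c (v' j y) (v j x) := by
  obtain ⟨p, hp, hp0⟩ := Cut.bdry_nonempty (h.disc i hi)
  have a : |v i p| ≤ c := by rw [hp0, abs_zero]; exact h.pos.le
  have m : p ∈ band C (v i) c := ⟨h.ball.1 hp, a⟩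
  have m' : φ.toFun p ∈ band C' (v' i) c :=
    ⟨h'.ball.1 (φ.mapsTo hp), (s_abs (hφ p hp i hi)).2 a⟩
  have e := miss h.pos (band_conn h hi) ((h.cont j hj).mono (sep_subset _ _))
    (fun z hz hz' => disjoint_left.1 d hz ⟨hz.1, hz'⟩) m hx
  have e' := miss h.pos (band_conn h' hi) ((h'.cont j hj).mono (sep_subset _ _))
    (fun z hz hz' => disjoint_left.1 d' hz ⟨hz.1, hz'⟩) hy m'
  exact s_trans e' (s_trans (hφ p hp j hj) e)

/-- the property of a product chart -/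
def Ch (C B : Set E) (c : ℝ) (s : Finset ι) (col : ι → Bool) (v : ι → E → ℝ) (k : ι)
    (κ : ConHomeo (lev C (v k) 0 ×ˢ Icc (-c) c) (band C (v k) c)) : Prop :=
  ∀ q ∈ lev C (v k) 0 ×ˢ Icc (-c) c, v k (κ.toFun q) = q.2 ∧ (κ.toFun q ∈ B ↔ q.1 ∈ B) ∧
    ∀ j ∈ s, col j ≠ col k → Same c (v j (κ.toFun q)) (v j q.1)

theorem exists_ch (h : Cfg C B c s col v) {k : ι} (hk : k ∈ s) : ∃ κ, Ch C B c s col v k κ := by
  obtain ⟨κ, hκ⟩ := h.chart k hk
  exact ⟨κ, fun q hq => (hκ q.1 hq.1).2 q.2 hq.2⟩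

theorem ch_img (hB : B ⊆ C) {k : ι} {κ : ConHomeo (lev C (v k) 0 ×ˢ Icc (-c) c) (band C (v k) c)}
    (hκ : Ch C B c s col v k κ) {t : Finset ι} (ht : ∀ j ∈ t, j ∈ s ∧ col j ≠ col k) :
    κ.symm.toFun '' (band C (v k) c ∩ B ∪ ⋃ j ∈ t, band C (v k) c ∩ band C (v j) c) =
      (lev B (v k) 0 ∪ ⋃ j ∈ t, band (lev C (v k) 0) (v j) c) ×ˢ Icc (-c) c := by
  refine Subset.antisymm ?_ ?_
  · rintro _ ⟨x, hx, rfl⟩
    have hx1 : x ∈ band C (v k) c := by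
      rcases hx with hx | hx
      · exact hx.1
      · obtain ⟨j, -, hx⟩ := mem_iUnion₂.1 hx
        exact hx.1
    have hq := κ.mapsTo_inv hx1
    have e := κ.right_inv hx1
    obtain ⟨-, b, d⟩ := hκ _ hq
    rw [e] at b d
    refine ⟨?_, hq.2⟩
    rcases hx with hx | hx
    · exact Or.inl ⟨b.1 hx.2, hq.1.2⟩
    · obtain ⟨j, hj, hx⟩ := mem_iUnion₂.1 hx
      exact Or.inr (mem_iUnion₂.2 ⟨j, hj, hq.1, (s_abs (d j (ht j hj).1 (ht j hj).2)).1 hx.2.2⟩)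
  · rintro q ⟨hq, hq2⟩
    have hq1 : q ∈ lev C (v k) 0 ×ˢ Icc (-c) c := by
      refine ⟨?_, hq2⟩
      rcases hq with hq | hq
      · exact ⟨hB hq.1, hq.2⟩
      · obtain ⟨j, -, hq⟩ := mem_iUnion₂.1 hq
        exact hq.1
    have hx := κ.mapsTo hq1
    obtain ⟨-, b, d⟩ := hκ _ hq1
    refine ⟨κ.toFun q, ?_, κ.left_inv hq1⟩
    rcases hq with hq | hq
    · exact Or.inl ⟨hx, b.2 hq.1⟩
    · obtain ⟨j, hj, hq⟩ := mem_iUnion₂.1 hq
      exact Or.inr (mem_iUnion₂.2 ⟨j, hj, hx, hx.1, (s_abs (d j (ht j hj).1 (ht j hj).2)).2 hq.2⟩)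

/-- the chosen maps on the tubes -/
def Tub (C B : Set E) (C' B' : Set F) (c : ℝ) (s : Finset ι) (v : ι → E → ℝ) (v' : ι → F → ℝ)
    (f : E → F) (T : ι → ι → E → F) : Prop :=
  ∀ k ∈ s, ∀ j ∈ s, k ≠ j → ¬ Disjoint (band C (v k) c) (band C (v j) c) → T k j = T j k ∧
    ∃ τ : ConHomeo (band C (v k) c ∩ band C (v j) c) (band C' (v' k) c ∩ band C' (v' j) c),
      τ.toFun = T k j ∧ ∀ x ∈ band C (v k) c ∩ band C (v j) c, v' k (T k j x) = v k x ∧
        v' j (T k j x) = v j x ∧ (T k j x ∈ B' ↔ x ∈ B) ∧ (x ∈ B → T k j x = f x)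

theorem exists_tub (h2 : TUBE) (φ : ConHomeo B B') (h : Cfg C B c s col v)
    (h' : Cfg C' B' c s col v') (hφ : ∀ x ∈ B, ∀ k ∈ s, Same c (v' k (φ.toFun x)) (v k x)) :
    ∃ T, Tub C B C' B' c s v v' φ.toFun T := by
  have ex : ∀ k j, ∃ g : E → F, k ∈ s → j ∈ s → k ≠ j →
      ¬ Disjoint (band C (v k) c) (band C (v j) c) →
      ∃ τ : ConHomeo (band C (v k) c ∩ band C (v j) c) (band C' (v' k) c ∩ band C' (v' j) c),
        τ.toFun = g ∧ ∀ x ∈ band C (v k) c ∩ band C (v j) c, v' k (g x) = v k x ∧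
          v' j (g x) = v j x ∧ (g x ∈ B' ↔ x ∈ B) ∧ (x ∈ B → g x = φ.toFun x) := by
    intro k j
    by_cases H : k ∈ s ∧ j ∈ s ∧ k ≠ j ∧ ¬ Disjoint (band C (v k) c) (band C (v j) c)
    · obtain ⟨τ, hτ⟩ := (h2 φ h h' hφ k H.1 j H.2.1 H.2.2.1).2 H.2.2.2
      exact ⟨τ.toFun, fun _ _ _ _ => ⟨τ, rfl, hτ⟩⟩
    · exact ⟨φ.toFun, fun a b d e => (H ⟨a, b, d, e⟩).elim⟩
  choose g hg using ex
  refine ⟨fun k j => if col k = true then g j k else g k j, fun k hk j hj hkj hx => ?_⟩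
  have hc := col_ne h hk hj hkj hx
  by_cases a : col k = true
  · have b : ¬ col j = true := fun b => hc (a.trans b.symm)
    simp only [if_pos a, if_neg b, true_and]
    obtain ⟨τ, e, p⟩ := hg j k hj hk hkj.symm (fun d => hx d.symm)
    refine ⟨τ.cast (inter_comm _ _) (inter_comm _ _), e, fun x hx => ?_⟩
    obtain ⟨p1, p2, p3⟩ := p x ⟨hx.2, hx.1⟩
    exact ⟨p2, p1, p3⟩
  · have b : col j = true := by
      cases hj' : col j
      · exact (hc ((Bool.eq_false_iff.2 a).trans hj'.symm)).elim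
      · rfl
    simp only [if_neg a, if_pos b, true_and]
    exact hg k j hk hj hkj hx

/-- the map on the part of a band which lies in the boundary or in a crossing band -/
theorem frame (φ : ConHomeo B B') (h : Cfg C B c s col v) (h' : Cfg C' B' c s col v')
    (hφ : ∀ x ∈ B, ∀ k ∈ s, Same c (v' k (φ.toFun x)) (v k x)) {T : ι → ι → E → F}
    (hT : Tub C B C' B' c s v v' φ.toFun T) {k : ι} (hk : k ∈ s) {t : Finset ι}
    (ht : ∀ j ∈ t, j ∈ s ∧ j ≠ k ∧ ¬ Disjoint (band C (v k) c) (band C (v j) c)) :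
    ∃ g : ConHomeo (band C (v k) c ∩ B ∪ ⋃ j ∈ t, band C (v k) c ∩ band C (v j) c)
      (band C' (v' k) c ∩ B' ∪ ⋃ j ∈ t, band C' (v' k) c ∩ band C' (v' j) c),
      EqOn g.toFun φ.toFun (band C (v k) c ∩ B) ∧
      (∀ j ∈ t, EqOn g.toFun (T k j) (band C (v k) c ∩ band C (v j) c)) ∧
      ∀ x ∈ band C (v k) c ∩ B ∪ ⋃ j ∈ t, band C (v k) c ∩ band C (v j) c,
        v' k (g.toFun x) = v k x ∧ (g.toFun x ∈ B' ↔ x ∈ B) ∧
        ∀ j ∈ t, Same c (v' j (g.toFun x)) (v j x) := by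
  have cc : ∀ i ∈ t, ∀ j ∈ t, col i = col j := by
    intro i hi j hj
    have a := col_ne h hk (ht i hi).1 (ht i hi).2.1.symm (ht i hi).2.2
    have b := col_ne h hk (ht j hj).1 (ht j hj).2.1.symm (ht j hj).2.2
    revert a b
    cases col k <;> cases col i <;> cases col j <;> simp
  have im : φ.toFun '' (band C (v k) c ∩ B) = band C' (v' k) c ∩ B' := by
    refine Subset.antisymm ?_ fun y hy => ?_
    · rintro _ ⟨x, hx, rfl⟩
      exact ⟨⟨h'.ball.1 (φ.mapsTo hx.2), (s_abs (hφ x hx.2 k hk)).2 hx.1.2⟩, φ.mapsTo hx.2⟩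
    · have a := φ.mapsTo_inv hy.2
      have e := φ.right_inv hy.2
      exact ⟨_, ⟨⟨h.ball.1 a, (s_abs (hφ _ a k hk)).1 (e.symm ▸ hy.1.2)⟩, a⟩, e⟩
  obtain ⟨κ, -⟩ := h.chart k hk
  let ρ : ConHomeo (band C (v k) c ∩ B) (band C' (v' k) c ∩ B') :=
    (φ.restr (κ.conicalSet_right.inter h.ball.conicalSet_bdry) inter_subset_right).cast rfl im
  have tb := fun j (hj : j ∈ t) => (hT k hk j (ht j hj).1 (ht j hj).2.1.symm (ht j hj).2.2).2
  have sm : ∀ i ∈ t, ∀ x ∈ band C (v k) c ∩ band C (v i) c, ∀ j ∈ t,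
      Same c (v' j (T k i x)) (v j x) := by
    intro i hi x hx j hj
    obtain ⟨τ, e, p⟩ := tb i hi
    by_cases hij : i = j
    · subst hij
      exact s_of_eq (p x hx).2.1
    · exact far φ h h' hφ (ht i hi).1 (ht j hj).1
        (disj_of_col h (ht i hi).1 (ht j hj).1 hij (cc i hi j hj))
        (disj_of_col h' (ht i hi).1 (ht j hj).1 hij (cc i hi j hj)) hx.2 (e ▸ (τ.mapsTo hx).2)
  obtain ⟨g, g1, g2⟩ := glue_fs t ρ (fun j => band C (v k) c ∩ band C (v j) c)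
    (fun j => band C' (v' k) c ∩ band C' (v' j) c) (T k)
    ((band_closed h hk).inter h.ball.isCompact_bdry.isClosed)
    ((band_closed h' hk).inter h'.ball.isCompact_bdry.isClosed)
    (fun j hj => ⟨(band_closed h hk).inter (band_closed h (ht j hj).1),
      (band_closed h' hk).inter (band_closed h' (ht j hj).1)⟩)
    (fun j hj => by
      obtain ⟨τ, e, -⟩ := tb j hj
      exact ⟨τ, fun x _ => congrFun e x⟩)
    (fun j hj x hx => by
      obtain ⟨τ, -, p⟩ := tb j hj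
      exact (p x hx.1).2.2.2 hx.2.2)
    (fun i hi j hj x hx => by
      by_cases hij : i = j
      · rw [hij]
      · exact (disjoint_left.1 (disj_of_col h (ht i hi).1 (ht j hj).1 hij (cc i hi j hj))
          hx.1.2 hx.2.2).elim)
    (fun j hj x hx hy => ⟨hx.1, hx.1.1, (s_abs (hφ x hx.2 j (ht j hj).1)).1 hy.2.2⟩)
    (fun j hj x hx hy => by
      obtain ⟨τ, -, p⟩ := tb j hj
      exact ⟨hx.1, (p x hx).2.2.1.1 hy.2⟩)
    (fun i hi j hj x hx hy => ⟨hx.1, hx.1.1, (s_abs (sm i hi x hx j hj)).1 hy.2.2⟩)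
  refine ⟨g, g1, g2, ?_⟩
  rintro x (hx | hx)
  · have e : g.toFun x = φ.toFun x := g1 hx
    rw [e]
    exact ⟨s_eq (hφ x hx.2 k hk) hx.1.2, iff_of_true (φ.mapsTo hx.2) hx.2,
      fun j hj => hφ x hx.2 j (ht j hj).1⟩
  · obtain ⟨i, hi, hx⟩ := mem_iUnion₂.1 hx
    obtain ⟨τ, -, p⟩ := tb i hi
    rw [g2 i hi hx]
    exact ⟨(p x hx).1, (p x hx).2.2.1, sm i hi x hx⟩

/-- the map on one band -/
theorem one_band (h1 : CFG) (h2 : TUBE) (h3 : STRIP) (φ : ConHomeo B B') (h : Cfg C B c s col v)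
    (h' : Cfg C' B' c s col v') (hφ : ∀ x ∈ B, ∀ k ∈ s, Same c (v' k (φ.toFun x)) (v k x))
    {T : ι → ι → E → F} (hT : Tub C B C' B' c s v v' φ.toFun T) {k : ι} (hk : k ∈ s) :
    ∃ χ : ConHomeo (band C (v k) c) (band C' (v' k) c),
      EqOn χ.toFun φ.toFun (band C (v k) c ∩ B) ∧
      (∀ j ∈ s, j ≠ k → ¬ Disjoint (band C (v k) c) (band C (v j) c) →
        EqOn χ.toFun (T k j) (band C (v k) c ∩ band C (v j) c)) ∧
      ∀ x ∈ band C (v k) c, ∀ j ∈ s, Same c (v' j (χ.toFun x)) (v j x) := by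
  classical
  obtain ⟨t, mt⟩ : ∃ t : Finset ι, ∀ j, j ∈ t ↔
      j ∈ s ∧ j ≠ k ∧ ¬ Disjoint (band C (v k) c) (band C (v j) c) :=
    ⟨s.filter fun j => j ≠ k ∧ ¬ Disjoint (band C (v k) c) (band C (v j) c),
      fun j => Finset.mem_filter⟩
  have ht := fun j (hj : j ∈ t) => (mt j).1 hj
  have ht' : ∀ j ∈ t, j ∈ s ∧ j ≠ k ∧ ¬ Disjoint (band C' (v' k) c) (band C' (v' j) c) :=
    fun j hj => ⟨(ht j hj).1, (ht j hj).2.1, fun d => (ht j hj).2.2
      ((h2 φ h h' hφ k hk j (ht j hj).1 (ht j hj).2.1.symm).1.2 d)⟩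
  have tc : ∀ j ∈ t, j ∈ s ∧ col j ≠ col k := fun j hj =>
    ⟨(ht j hj).1, (col_ne h hk (ht j hj).1 (ht j hj).2.1.symm (ht j hj).2.2).symm⟩
  have cc : ∀ i ∈ t, ∀ j ∈ t, col i = col j := by
    intro i hi j hj
    have a := (tc i hi).2
    have b := (tc j hj).2
    revert a b
    cases col k <;> cases col i <;> cases col j <;> simp
  obtain ⟨g, g1, g2, g3⟩ := frame φ h h' hφ hT hk ht
  obtain ⟨κ, hκ⟩ := exists_ch h hk
  obtain ⟨κ', hκ'⟩ := exists_ch h' hk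
  have u : band C (v k) c ∩ B ∪ ⋃ j ∈ t, band C (v k) c ∩ band C (v j) c ⊆ band C (v k) c :=
    union_subset inter_subset_left (iUnion₂_subset fun _ _ => inter_subset_left)
  have u' : band C' (v' k) c ∩ B' ∪ ⋃ j ∈ t, band C' (v' k) c ∩ band C' (v' j) c ⊆
      band C' (v' k) c :=
    union_subset inter_subset_left (iUnion₂_subset fun _ _ => inter_subset_left)
  let a := (κ.symm.restr g.conicalSet_left u).cast rfl (ch_img h.ball.1 hκ tc)
  let a' := (κ'.symm.restr g.conicalSet_right u').cast rfl (ch_img h'.ball.1 hκ' tc)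
  have w : (lev B (v k) 0 ∪ ⋃ j ∈ t, band (lev C (v k) 0) (v j) c) ×ˢ Icc (-c) c ⊆
      lev C (v k) 0 ×ˢ Icc (-c) c :=
    prod_mono (union_subset (h.disc k hk).1 (iUnion₂_subset fun _ _ => sep_subset _ _)) Subset.rfl
  obtain ⟨Ψ, p1, p2⟩ := h3 t v v' (a.symm.trans (g.trans a')) h.pos (h.disc k hk) (h'.disc k hk)
    ((h1 h).2.2 k hk t ht) ((h1 h').2.2 k hk t ht')
    (fun i hi j hj hij =>
      ⟨disjoint_left.2 fun _ hx hy => disjoint_left.1
        (disj_of_col h (ht i hi).1 (ht j hj).1 hij (cc i hi j hj)) ⟨hx.1.1, hx.2⟩ ⟨hy.1.1, hy.2⟩,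
      disjoint_left.2 fun _ hx hy => disjoint_left.1
        (disj_of_col h' (ht i hi).1 (ht j hj).1 hij (cc i hi j hj)) ⟨hx.1.1, hx.2⟩ ⟨hy.1.1, hy.2⟩⟩)
    (fun q hq => by
      have m : κ.toFun q ∈ _ := a.mapsTo_inv hq
      have m' := u' (g.mapsTo m)
      have n := κ'.mapsTo_inv m'
      obtain ⟨b1, b2, b3⟩ := hκ q (w hq)
      obtain ⟨d1, d2, d3⟩ := hκ' _ n
      obtain ⟨e1, e2, e3⟩ := g3 _ m
      rw [κ'.right_inv m'] at d1 d2 d3
      refine ⟨d1.symm.trans (e1.trans b1), ?_, fun j hj =>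
        s_trans (s_symm (d3 j (tc j hj).1 (tc j hj).2))
          (s_trans (e3 j hj) (b3 j (tc j hj).1 (tc j hj).2))⟩
      exact ⟨fun z => ⟨b2.1 (e2.1 (d2.2 z.1)), (w hq).1.2⟩,
        fun z => ⟨d2.1 (e2.2 (b2.2 z.1)), n.1.2⟩⟩)
  have key : EqOn (κ.symm.trans (Ψ.trans κ')).toFun g.toFun
      (band C (v k) c ∩ B ∪ ⋃ j ∈ t, band C (v k) c ∩ band C (v j) c) := by
    intro x hx
    have m : κ.invFun x ∈ _ := a.mapsTo hx
    show κ'.toFun (Ψ.toFun (κ.invFun x)) = g.toFun x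
    rw [p1 m]
    show κ'.toFun (κ'.invFun (g.toFun (κ.toFun (κ.invFun x)))) = g.toFun x
    rw [κ.right_inv (u hx), κ'.right_inv (u' (g.mapsTo hx))]
  refine ⟨κ.symm.trans (Ψ.trans κ'), fun x hx => (key (Or.inl hx)).trans (g1 hx),
    fun j hj hjk hd x hx => ?_, fun x hx j hj => ?_⟩
  · have hjt := (mt j).2 ⟨hj, hjk, hd⟩
    exact (key (Or.inr (mem_iUnion₂.2 ⟨j, hjt, hx⟩))).trans (g2 j hjt hx)
  · have n := κ.mapsTo_inv hx
    obtain ⟨b1, -, b3⟩ := hκ _ n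
    obtain ⟨d1, -, d3⟩ := hκ' _ (Ψ.mapsTo n)
    obtain ⟨e1, e3⟩ := p2 _ n
    rw [κ.right_inv hx] at b1 b3
    by_cases hjk : j = k
    · subst hjk
      exact s_of_eq (d1.trans (e1.trans b1.symm))
    by_cases hjt : j ∈ t
    · exact s_trans (d3 j hj (tc j hjt).2) (s_trans (e3 j hjt) (s_symm (b3 j hj (tc j hjt).2)))
    · have d : Disjoint (band C (v k) c) (band C (v j) c) := by
        by_contra d
        exact hjt ((mt j).2 ⟨hj, hjk, d⟩)
      exact far φ h h' hφ hk hj d ((h2 φ h h' hφ k hk j hj (Ne.symm hjk)).1.1 d) hx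
        ((κ.symm.trans (Ψ.trans κ')).mapsTo hx)

end cfg

end FlatA

open FlatA in
theorem flat_of (h1 : CFG) (h2 : TUBE) (h3 : STRIP) (h4 : FILLC) : FLAT := by
  intro E F _ _ _ _ ι s col C B C' B' c v v' φ h h' hφ
  obtain ⟨T, hT⟩ := exists_tub h2 φ h h' hφ
  have ex : ∀ k, ∃ f : E → F, k ∈ s → (∃ χ : ConHomeo (band C (v k) c) (band C' (v' k) c),
      EqOn χ.toFun f (band C (v k) c)) ∧ EqOn f φ.toFun (band C (v k) c ∩ B) ∧
      (∀ j ∈ s, j ≠ k → ¬ Disjoint (band C (v k) c) (band C (v j) c) →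
        EqOn f (T k j) (band C (v k) c ∩ band C (v j) c)) ∧
      ∀ x ∈ band C (v k) c, (f x ∈ B' → x ∈ B) ∧ ∀ j ∈ s, Same c (v' j (f x)) (v j x) := by
    intro k
    by_cases hk : k ∈ s
    · obtain ⟨χ, a, b, d⟩ := one_band h1 h2 h3 φ h h' hφ hT hk
      refine ⟨χ.toFun, fun _ => ⟨⟨χ, fun _ _ => rfl⟩, a, b, fun x hx => ⟨fun hy => ?_, d x hx⟩⟩⟩
      have m := φ.mapsTo_inv hy
      have e := φ.right_inv hy
      have n : φ.invFun (χ.toFun x) ∈ band C (v k) c :=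
        ⟨h.ball.1 m, (s_abs (hφ _ m k hk)).1 (e.symm ▸ (χ.mapsTo hx).2)⟩
      exact χ.injOn n hx ((a ⟨n, m⟩).trans e) ▸ m
    · exact ⟨φ.toFun, fun a => (hk a).elim⟩
  choose f hf using ex
  obtain ⟨ψ, p1, p2⟩ := glue_fs s φ (fun k => band C (v k) c) (fun k => band C' (v' k) c) f
    h.ball.isCompact_bdry.isClosed h'.ball.isCompact_bdry.isClosed
    (fun k hk => ⟨band_closed h hk, band_closed h' hk⟩) (fun k hk => (hf k hk).1)
    (fun k hk => (hf k hk).2.1)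
    (fun i hi j hj x hx => by
      by_cases hij : i = j
      · rw [hij]
      · have d : ¬ Disjoint (band C (v i) c) (band C (v j) c) :=
          fun d => disjoint_left.1 d hx.1 hx.2
        rw [(hf i hi).2.2.1 j hj (Ne.symm hij) d hx,
          (hf j hj).2.2.1 i hi hij (fun e => d e.symm) ⟨hx.2, hx.1⟩, (hT i hi j hj hij d).1])
    (fun k hk x hx hy => ⟨h.ball.1 hx, (s_abs (hφ x hx k hk)).1 hy.2⟩)
    (fun k hk x hx => ((hf k hk).2.2.2 x hx).1)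
    (fun i hi j hj x hx hy => ⟨hx.1, (s_abs (((hf i hi).2.2.2 x hx).2 j hj)).1 hy.2⟩)
  obtain ⟨Φ, q1, q2⟩ := h4 s col v v' ψ h.pos h.ball h'.ball (h1 h).1 (h1 h').1 (h1 h).2.1
    (h1 h').2.1 (by
      intro x hx
      by_cases hB : x ∈ B
      · rw [p1 hB]
        exact ⟨iff_of_true (φ.mapsTo hB) hB, hφ x hB⟩
      · obtain ⟨k, hk, hx⟩ := mem_iUnion₂.1 (hx.resolve_left hB)
        rw [p2 k hk hx]
        exact ⟨iff_of_false (fun hy => hB (((hf k hk).2.2.2 x hx).1 hy)) hB,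
          ((hf k hk).2.2.2 x hx).2⟩)
  exact ⟨Φ, fun x hx => (q1 (Or.inl hx)).trans (p1 hx), q2⟩

end P073.Fl
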