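import Vale.Agent.P073Y.Fl.Sk
import Vale.Agent.P073Y.Cut.All
import Vale.Agent.P073Z.SHELL.A

/-!
# Level preserving extension over a disc with disjoint strips
-/

open Set Metric Topology Filter

namespace P073.Fl

namespace StripAux

variable {E F : Type} [NormedAddCommGroup E] [NormedSpace ℝ E]
  [NormedAddCommGroup F] [NormedSpace ℝ F] {ι : Type}

theorem same_neg {c a b : ℝ} (h : Same c a b) : Same c (-a) (-b) := fun r hr => by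
  obtain ⟨h1, h2⟩ := h (-r) ⟨by linarith [hr.2], by linarith [hr.1]⟩
  exact ⟨neg_le.trans (h2.trans neg_le), le_neg.trans (h1.trans le_neg)⟩

theorem same_gt {c a b : ℝ} (ha : c < a) (hb : c < b) : Same c a b := fun r hr =>
  ⟨iff_of_false (by linarith [hr.2]) (by linarith [hr.2]),
    iff_of_true (by linarith [hr.2]) (by linarith [hr.2])⟩

theorem same_lt {c a b : ℝ} (ha : a < -c) (hb : b < -c) : Same c a b := fun r hr =>
  ⟨iff_of_true (by linarith [hr.1]) (by linarith [hr.1]),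
    iff_of_false (by linarith [hr.1]) (by linarith [hr.1])⟩

theorem top {c a b : ℝ} (hc : 0 < c) (h : Same c a b) : (a ≤ c ↔ b ≤ c) ∧ (c ≤ a ↔ c ≤ b) :=
  h c ⟨by linarith, le_rfl⟩

theorem bot {c a b : ℝ} (hc : 0 < c) (h : Same c a b) : -c ≤ a ↔ -c ≤ b :=
  (h (-c) ⟨le_rfl, by linarith⟩).2

theorem same_abs {c a b : ℝ} (hc : 0 < c) (h : Same c a b) : |a| ≤ c ↔ |b| ≤ c := by
  rw [abs_le, abs_le, bot hc h, (top hc h).1]

theorem exists_restr {X A : Set E} {Y B : Set F} (ψ : ConHomeo X Y) (hA : ConicalSet A)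
    (h : ∀ q ∈ X, ψ.toFun q ∈ B ↔ q ∈ A) :
    ∃ χ : ConHomeo (X ∩ A) (Y ∩ B), χ.toFun = ψ.toFun := by
  refine ⟨(ψ.restr (ψ.conicalSet_left.inter hA) inter_subset_left).cast rfl ?_, rfl⟩
  refine Subset.antisymm ?_ fun y hy => ⟨_, ⟨ψ.mapsTo_inv hy.1, ?_⟩, ψ.right_inv hy.1⟩
  · rintro _ ⟨q, hq, rfl⟩
    exact ⟨ψ.mapsTo hq.1, (h q hq.1).2 hq.2⟩
  · exact (h _ (ψ.mapsTo_inv hy.1)).1 (by rw [ψ.right_inv hy.1]; exact hy.2)

theorem glue_ext {X A : Set E} {Y B : Set F} (ψ : ConHomeo X Y) (Φ : ConHomeo A B)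
    (hX : IsClosed X) (hA : IsClosed A) (hY : IsClosed Y) (hB : IsClosed B)
    (h : ∀ q ∈ X, ψ.toFun q ∈ B → q ∈ A) (he : EqOn Φ.toFun ψ.toFun (X ∩ A)) :
    ∃ G : ConHomeo (X ∪ A) (Y ∪ B), EqOn G.toFun ψ.toFun X ∧ EqOn G.toFun Φ.toFun A := by
  have hi : Y ∩ B ⊆ ψ.toFun '' (X ∩ A) := fun y hy =>
    ⟨_, ⟨ψ.mapsTo_inv hy.1, h _ (ψ.mapsTo_inv hy.1) (by rw [ψ.right_inv hy.1]; exact hy.2)⟩,
      ψ.right_inv hy.1⟩
  exact ⟨ψ.glue Φ hX hA hY hB he.symm hi, ConHomeo.glue_left _ _ _ _ _ _ _ _,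
    ConHomeo.glue_right _ _ _ _ _ _ _ _⟩

omit [NormedSpace ℝ E] in
theorem sign_of {P : Set E} {w : E → ℝ} {c : ℝ} (hc : 0 < c) (hP : IsPreconnected P)
    (hw : ContinuousOn w P) (hne : ∀ x ∈ P, ¬ |w x| ≤ c) {x y : E} (hx : x ∈ P) (hy : y ∈ P) :
    (w x < -c → w y < -c) ∧ (c < w x → c < w y) := by
  have h0 : ∀ z ∈ P, w z ≠ 0 := fun z hz h => hne z hz (by rw [h, abs_zero]; exact hc.le)
  have h1 := hne y hy
  rw [abs_le, not_and_or, not_le, not_le] at h1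
  refine ⟨fun h => h1.resolve_right fun h2 => ?_, fun h => h1.resolve_left fun h2 => ?_⟩
  · have := Cut.sign_const hP hw h0 hx hy (by linarith)
    linarith
  · have := Cut.sign_const hP hw h0 hy hx (by linarith)
    linarith

/-- the faces of one band -/
def Face (D J : Set E) (c : ℝ) (u : E → ℝ) : Prop :=
  ContinuousOn u D ∧ Both J u c ∧ ∀ a ∈ ({-c, c} : Set ℝ), ConBall 1 (lev D u a) (lev J u a)

/-- the upper piece -/
def up (D : Set E) (u : E → ℝ) (c : ℝ) : Set E := {x ∈ D | c ≤ u x}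

/-- the boundary of the upper piece -/
def upB (D J : Set E) (u : E → ℝ) (c : ℝ) : Set E := {x ∈ D | u x = c} ∪ {x ∈ J | c ≤ u x}

variable {D J : Set E} {c : ℝ} {u w : E → ℝ}

theorem Face.neg (h : Face D J c u) : Face D J c fun x => -u x := by
  obtain ⟨h1, ⟨⟨x, hx, hx'⟩, y, hy, hy'⟩, h3⟩ := h
  refine ⟨h1.neg, ⟨⟨y, hy, by simpa using hy'⟩, x, hx, lt_neg.1 hx'⟩, fun a ha => ?_⟩
  have e : ∀ X : Set E, lev X (fun x => -u x) a = lev X u (-a) := fun X => by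
    ext z
    simp only [lev, mem_ofPred_eq, neg_eq_iff_eq_neg]
  rw [e, e]
  refine h3 _ ?_
  rcases ha with rfl | rfl
  exacts [Or.inr (neg_neg c), Or.inl rfl]

theorem Face.sides (h : Face D J c u) (hD : ConBall 2 D J) (hc : 0 < c) :
    ConBall 2 {x ∈ D | u x ≤ c} ({x ∈ D | u x = c} ∪ {x ∈ J | u x ≤ c}) ∧
      ConBall 2 (up D u c) (upB D J u c) := by
  obtain ⟨h1, ⟨⟨x, hx, hx'⟩, y, hy, hy'⟩, h3⟩ := h
  exact Cut.side1 hD h1 (h3 c (Or.inr rfl)) ⟨x, hD.1 hx, by linarith⟩ ⟨y, hD.1 hy, hy'⟩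

theorem Face.pt (h : Face D J c u) : ∃ x ∈ D, u x = c := Cut.KeepAux.ne (h.2.2 c (Or.inr rfl))

theorem Face.ball (h : Face D J c u) (hD : ConBall 2 D J) (hc : 0 < c) :
    ∃ B, ConBall 2 (band D u c) B := by
  have hl : -c < c := by linarith
  obtain ⟨x, hx, hx'⟩ := h.2.1.1
  obtain ⟨y, hy, hy'⟩ := h.pt
  have := (Cut.side1 (a := -c) (h.sides hD hc).1 (h.1.mono fun _ hz => hz.1)
    (by rw [Cut.KeepAux.lev hl, Cut.KeepAux.lev' hl]; exact h.2.2 _ (Or.inl rfl))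
    ⟨x, ⟨hD.1 hx, by linarith⟩, hx'⟩ ⟨y, ⟨hy, hy'.le⟩, by linarith⟩).2
  have e : {x ∈ {x ∈ D | u x ≤ c} | -c ≤ u x} = band D u c := by
    ext z
    simp only [band, mem_ofPred_eq, abs_le]
    tauto
  exact ⟨_, e ▸ this⟩

omit [NormedAddCommGroup E] [NormedSpace ℝ E] in
theorem lev_band (hc : 0 < c) {x : E} (hx : x ∈ D) (h : u x = c) : x ∈ band D u c :=
  ⟨hx, by rw [h, abs_of_pos hc]⟩

omit [NormedAddCommGroup E] [NormedSpace ℝ E] in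
theorem band_up : band (up D u c) w c ⊆ band D w c := fun _ h => ⟨h.1.1, h.2⟩

theorem Face.piece (hu : Face D J c u) (hw : Face D J c w) (hD : ConBall 2 D J) (hc : 0 < c)
    (hd : Disjoint (band D u c) (band D w c)) (hs : band D w c ⊆ up D u c) :
    Face (up D u c) (upB D J u c) c w := by
  have hN : ∀ x ∈ {x ∈ D | u x ≤ c}, ¬ |w x| ≤ c := fun x hx h =>
    disjoint_left.1 hd (lev_band hc hx.1 (le_antisymm hx.2 (hs ⟨hx.1, h⟩).2)) ⟨hx.1, h⟩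
  obtain ⟨z, hz, hz'⟩ := hu.pt
  have sg := fun y hy => sign_of hc (hu.sides hD hc).1.isConnected.isPreconnected
    (hw.1.mono fun _ h => h.1) hN (x := z) (y := y) ⟨hz, hz'.le⟩ hy
  obtain ⟨⟨x, hx, hx'⟩, y, hy, hy'⟩ := hw.2.1
  refine ⟨hw.1.mono fun _ h => h.1, ?_, fun a ha => ?_⟩
  · have h1 := hN z ⟨hz, hz'.le⟩
    rw [abs_le, not_and_or, not_le, not_le] at h1
    rcases h1 with h1 | h1
    · refine ⟨⟨z, Or.inl ⟨hz, hz'⟩, h1⟩, y, Or.inr ⟨hy, not_lt.1 fun h => ?_⟩, hy'⟩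
      linarith [(sg y ⟨hD.1 hy, h.le⟩).1 h1]
    · refine ⟨⟨x, Or.inr ⟨hx, not_lt.1 fun h => ?_⟩, hx'⟩, z, Or.inl ⟨hz, hz'⟩, h1⟩
      linarith [(sg x ⟨hD.1 hx, h.le⟩).2 h1]
  · have ha' : |a| ≤ c := by
      rcases ha with rfl | rfl
      exacts [by rw [abs_neg, abs_of_pos hc], by rw [abs_of_pos hc]]
    have e1 : lev (up D u c) w a = lev D w a := Subset.antisymm (fun _ h => ⟨h.1.1, h.2⟩)
      fun p h => ⟨hs ⟨h.1, h.2.symm ▸ ha'⟩, h.2⟩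
    have e2 : lev (upB D J u c) w a = lev J w a := by
      refine Subset.antisymm ?_ fun p h => ⟨Or.inr ⟨h.1, (hs ⟨hD.1 h.1, h.2.symm ▸ ha'⟩).2⟩, h.2⟩
      rintro p ⟨h | h, h'⟩
      · exact (hN p ⟨h.1, h.2.le⟩ (h'.symm ▸ ha')).elim
      · exact ⟨h.1, h'⟩
    rw [e1, e2]
    exact hw.2.2 a ha

omit [NormedAddCommGroup E] [NormedSpace ℝ E] in
theorem dom_eq {s t : Finset ι} {v : ι → E → ℝ} {k : ι} (hc : 0 < c) (hJ : J ⊆ D) (hk : k ∈ s)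
    (hb : band D (v k) c = band D u c) (ht : t ⊆ s)
    (h : ∀ j ∈ s, j ≠ k → j ∉ t → ∀ x ∈ up D u c, ¬ |v j x| ≤ c) :
    (upB D J u c ∪ ⋃ j ∈ t, band (up D u c) (v j) c) ×ˢ Icc (-c) c =
      (J ∪ ⋃ j ∈ s, band D (v j) c) ×ˢ Icc (-c) c ∩ up D u c ×ˢ Icc (-c) c := by
  rw [← inter_prod]
  congr 1
  refine Subset.antisymm ?_ ?_
  · rintro x ((hx | hx) | hx)
    · exact ⟨Or.inr (mem_biUnion hk (hb ▸ lev_band hc hx.1 hx.2)), hx.1, hx.2.ge⟩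
    · exact ⟨Or.inl hx.1, hJ hx.1, hx.2⟩
    · obtain ⟨j, hj, hx⟩ := mem_iUnion₂.1 hx
      exact ⟨Or.inr (mem_biUnion (ht hj) ⟨hx.1.1, hx.2⟩), hx.1⟩
  · rintro x ⟨hx | hx, hx'⟩
    · exact Or.inl (Or.inr ⟨hx, hx'.2⟩)
    · obtain ⟨j, hj, hx⟩ := mem_iUnion₂.1 hx
      by_cases h1 : j = k
      · rw [h1, hb] at hx
        exact Or.inl (Or.inl ⟨hx.1, le_antisymm (le_of_abs_le hx.2) hx'.2⟩)
      · by_cases h2 : j ∈ t
        · exact Or.inr (mem_biUnion h2 ⟨hx', hx.2⟩)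
        · exact (h j hj h1 h2 x hx' hx.2).elim

omit [NormedAddCommGroup E] [NormedSpace ℝ E] in
theorem dom_sub {s : Finset ι} {v : ι → E → ℝ} (hJ : J ⊆ D) :
    J ∪ ⋃ j ∈ s, band D (v j) c ⊆ D :=
  union_subset hJ (iUnion₂_subset fun _ _ _ h => h.1)

theorem dom_closed {s : Finset ι} {v : ι → E → ℝ} (hD : ConBall 2 D J) (hc : 0 < c)
    (h : Faces 1 D J c s v) : IsClosed ((J ∪ ⋃ j ∈ s, band D (v j) c) ×ˢ Icc (-c) c) :=
  (hD.isCompact_bdry.isClosed.union (isClosed_biUnion_finset fun j hj =>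
    (Face.ball (h j hj) hD hc).choose_spec.isClosed)).prod isClosed_Icc

/-- the statement for one family -/
def St (v : ι → E → ℝ) (v' : ι → F → ℝ) (c : ℝ) (s : Finset ι) : Prop :=
  ∀ {D J : Set E} {D' J' : Set F}
  (ψ : ConHomeo ((J ∪ ⋃ k ∈ s, band D (v k) c) ×ˢ Icc (-c) c)
    ((J' ∪ ⋃ k ∈ s, band D' (v' k) c) ×ˢ Icc (-c) c)),
  ConBall 2 D J → ConBall 2 D' J' → Faces 1 D J c s v → Faces 1 D' J' c s v' →
  (∀ k ∈ s, ∀ j ∈ s, k ≠ j → Disjoint (band D (v k) c) (band D (v j) c) ∧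
    Disjoint (band D' (v' k) c) (band D' (v' j) c)) →
  (∀ q ∈ (J ∪ ⋃ k ∈ s, band D (v k) c) ×ˢ Icc (-c) c, (ψ.toFun q).2 = q.2 ∧
    ((ψ.toFun q).1 ∈ J' ↔ q.1 ∈ J) ∧ ∀ k ∈ s, Same c (v' k (ψ.toFun q).1) (v k q.1)) →
  ∃ Ψ : ConHomeo (D ×ˢ Icc (-c) c) (D' ×ˢ Icc (-c) c),
    EqOn Ψ.toFun ψ.toFun ((J ∪ ⋃ k ∈ s, band D (v k) c) ×ˢ Icc (-c) c) ∧
    ∀ q ∈ D ×ˢ Icc (-c) c, (Ψ.toFun q).2 = q.2 ∧ ∀ k ∈ s, Same c (v' k (Ψ.toFun q).1) (v k q.1)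

theorem piece {v : ι → E → ℝ} {v' : ι → F → ℝ} {s : Finset ι} {D' J' : Set F} {u' : F → ℝ}
    {k : ι} (ih : ∀ t ⊂ s, St v v' c t) (hc : 0 < c)
    (ψ : ConHomeo ((J ∪ ⋃ k ∈ s, band D (v k) c) ×ˢ Icc (-c) c)
      ((J' ∪ ⋃ k ∈ s, band D' (v' k) c) ×ˢ Icc (-c) c))
    (hD : ConBall 2 D J) (hD' : ConBall 2 D' J') (hF : Faces 1 D J c s v)
    (hF' : Faces 1 D' J' c s v')
    (hd : ∀ k ∈ s, ∀ j ∈ s, k ≠ j → Disjoint (band D (v k) c) (band D (v j) c) ∧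
      Disjoint (band D' (v' k) c) (band D' (v' j) c))
    (hψ : ∀ q ∈ (J ∪ ⋃ k ∈ s, band D (v k) c) ×ˢ Icc (-c) c, (ψ.toFun q).2 = q.2 ∧
      ((ψ.toFun q).1 ∈ J' ↔ q.1 ∈ J) ∧ ∀ k ∈ s, Same c (v' k (ψ.toFun q).1) (v k q.1))
    (hk : k ∈ s) (hu : Face D J c u) (hu' : Face D' J' c u')
    (hb : band D (v k) c = band D u c) (hb' : band D' (v' k) c = band D' u' c)
    (hS : ∀ q ∈ (J ∪ ⋃ k ∈ s, band D (v k) c) ×ˢ Icc (-c) c, Same c (u' (ψ.toFun q).1) (u q.1)) :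
    ∃ Ψ : ConHomeo (up D u c ×ˢ Icc (-c) c) (up D' u' c ×ˢ Icc (-c) c),
      EqOn Ψ.toFun ψ.toFun
        ((J ∪ ⋃ k ∈ s, band D (v k) c) ×ˢ Icc (-c) c ∩ up D u c ×ˢ Icc (-c) c) ∧
      ∀ q ∈ up D u c ×ˢ Icc (-c) c, (Ψ.toFun q).2 = q.2 ∧ Same c (u' (Ψ.toFun q).1) (u q.1) ∧
        ∀ j ∈ s, j ≠ k → Same c (v' j (Ψ.toFun q).1) (v j q.1) := by
  classical
  have h0 : (0 : ℝ) ∈ Icc (-c) c := ⟨by linarith, hc.le⟩
  have hP := (hu.sides hD hc).2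
  have hP' := (hu'.sides hD' hc).2
  let t := s.filter fun j => j ≠ k ∧ band D (v j) c ⊆ up D u c
  have hts : t ⊆ s := Finset.filter_subset _ _
  have tr : ∀ j ∈ s, ∀ y ∈ band D' (v' j) c, ∃ x ∈ band D (v j) c, (c ≤ u' y ↔ c ≤ u x) := by
    intro j hj y hy
    have h1 : (y, (0 : ℝ)) ∈ (J' ∪ ⋃ k ∈ s, band D' (v' k) c) ×ˢ Icc (-c) c :=
      ⟨Or.inr (mem_biUnion hj hy), h0⟩
    have h2 := ψ.mapsTo_inv h1
    have h3 := (hψ _ h2).2.2 j hj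
    have h4 := hS _ h2
    rw [ψ.right_inv h1] at h3 h4
    exact ⟨_, ⟨dom_sub hD.1 h2.1, (same_abs hc h3).1 hy.2⟩, (top hc h4).2⟩
  have o1 : ∀ j ∈ s, j ≠ k → j ∉ t → ∀ x ∈ up D u c, ¬ |v j x| ≤ c := by
    intro j hj hjk hjt x hx hx'
    obtain ⟨y, hy, hy'⟩ := not_subset.1 fun h => hjt (Finset.mem_filter.2 ⟨hj, hjk, h⟩)
    obtain ⟨B, hB⟩ := Face.ball (hF j hj) hD hc
    exact absurd (Cut.sign_const hB.isConnected.isPreconnected (hu.1.mono fun _ h => h.1)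
      (fun z hz h => disjoint_left.1 (hd j hj k hk hjk).1 hz (hb ▸ lev_band hc hz.1 h)) hy
      ⟨hx.1, hx'⟩ (not_le.1 fun h => hy' ⟨hy.1, h⟩)) (not_lt.2 hx.2)
  have o2 : ∀ j ∈ s, j ≠ k → j ∉ t → ∀ y ∈ up D' u' c, ¬ |v' j y| ≤ c := by
    intro j hj hjk hjt y hy hy'
    obtain ⟨x, hx, hx'⟩ := tr j hj y ⟨hy.1, hy'⟩
    exact o1 j hj hjk hjt x ⟨hx.1, hx'.1 hy.2⟩ hx.2
  have e1 := dom_eq hc hD.1 hk hb hts o1
  have e2 := dom_eq hc hD'.1 hk hb' hts o2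
  have hup : ∀ q ∈ (J ∪ ⋃ k ∈ s, band D (v k) c) ×ˢ Icc (-c) c,
      ψ.toFun q ∈ up D' u' c ×ˢ Icc (-c) c ↔ q ∈ up D u c ×ˢ Icc (-c) c := fun q hq =>
    ⟨fun h => ⟨⟨dom_sub hD.1 hq.1, (top hc (hS q hq)).2.1 h.1.2⟩, hq.2⟩, fun h =>
      ⟨⟨dom_sub hD'.1 (ψ.mapsTo hq).1, (top hc (hS q hq)).2.2 h.1.2⟩, (ψ.mapsTo hq).2⟩⟩
  obtain ⟨χ, hχ⟩ := exists_restr ψ
    (Sh.conicalSet_prod hP.conicalSet (Convex.conicalSet (convex_Icc _ _))) hup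
  obtain ⟨Ψ, a1, a2⟩ := ih t (Finset.filter_ssubset.2 ⟨k, hk, fun h => h.1 rfl⟩)
    (χ.cast e1.symm e2.symm) hP hP'
    (fun j hj => by
      obtain ⟨m1, m2, m3⟩ := Finset.mem_filter.1 hj
      exact hu.piece (hF j m1) hD hc (hb ▸ (hd k hk j m1 m2.symm).1) m3)
    (fun j hj => by
      obtain ⟨m1, m2, m3⟩ := Finset.mem_filter.1 hj
      refine hu'.piece (hF' j m1) hD' hc (hb' ▸ (hd k hk j m1 m2.symm).2) fun y hy => ?_
      obtain ⟨x, hx, hx'⟩ := tr j m1 y hy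
      exact ⟨hy.1, hx'.2 (m3 hx).2⟩)
    (fun i hi j hj hij =>
      ⟨(hd i (hts hi) j (hts hj) hij).1.mono band_up band_up,
        (hd i (hts hi) j (hts hj) hij).2.mono band_up band_up⟩)
    (fun q hq => by
      rw [e1] at hq
      obtain ⟨b1, b2, b3⟩ := hψ q hq.1
      obtain ⟨c1, c2⟩ := top hc (hS q hq.1)
      rw [ConHomeo.cast_toFun, hχ]
      refine ⟨b1, or_congr (and_congr (iff_of_true (dom_sub hD'.1 (ψ.mapsTo hq.1).1) hq.2.1.1) ?_)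
        (and_congr b2 c2), fun j hj => b3 j (hts hj)⟩
      rw [le_antisymm_iff, le_antisymm_iff, c1, c2])
  rw [ConHomeo.cast_toFun, hχ, e1] at a1
  refine ⟨Ψ, a1, fun q hq => ⟨(a2 q hq).1, ?_, fun j hj hjk => ?_⟩⟩
  · by_cases hz : q ∈ (J ∪ ⋃ k ∈ s, band D (v k) c) ×ˢ Icc (-c) c
    · rw [a1 ⟨hz, hq⟩]
      exact hS q hz
    · have hy := Ψ.mapsTo hq
      refine same_gt (lt_of_le_of_ne hy.1.2 fun h => hz ?_) (lt_of_le_of_ne hq.1.2 fun h =>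
        hz ⟨Or.inr (mem_biUnion hk (hb ▸ lev_band hc hq.1.1 h.symm)), hq.2⟩)
      have h1 : Ψ.toFun q ∈ (J' ∪ ⋃ k ∈ s, band D' (v' k) c) ×ˢ Icc (-c) c :=
        ⟨Or.inr (mem_biUnion hk (hb' ▸ lev_band hc hy.1.1 h.symm)), hy.2⟩
      have h2 := ψ.mapsTo_inv h1
      have h3 := (hup _ h2).1 (by rw [ψ.right_inv h1]; exact hy)
      rwa [Ψ.injOn h3 hq ((a1 ⟨h2, h3⟩).trans (ψ.right_inv h1))] at h2
  · by_cases hjt : j ∈ t
    · exact (a2 q hq).2 j hjt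
    · obtain ⟨z, hz, hz'⟩ := hu.pt
      have h1 : (z, (0 : ℝ)) ∈ (J ∪ ⋃ k ∈ s, band D (v k) c) ×ˢ Icc (-c) c :=
        ⟨Or.inr (mem_biUnion hk (hb ▸ lev_band hc hz hz')), h0⟩
      have h2 := (hψ _ h1).2.2 j hj
      have s1 := sign_of hc hP.isConnected.isPreconnected ((hF j hj).1.mono fun _ h => h.1)
        (o1 j hj hjk hjt) (x := z) ⟨hz, hz'.ge⟩ hq.1
      have s2 := sign_of hc hP'.isConnected.isPreconnected ((hF' j hj).1.mono fun _ h => h.1)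
        (o2 j hj hjk hjt) ((hup _ h1).2 ⟨⟨hz, hz'.ge⟩, h0⟩).1 (Ψ.mapsTo hq).1
      have h3 := o1 j hj hjk hjt z ⟨hz, hz'.ge⟩
      rw [abs_le, not_and_or, not_le, not_le] at h3
      rcases h3 with h3 | h3
      · exact same_lt (s2.1 (not_le.1 fun h => not_le.2 h3 ((bot hc h2).1 h))) (s1.1 h3)
      · exact same_gt (s2.2 (not_le.1 fun h => not_le.2 h3 ((top hc h2).1.1 h))) (s1.2 h3)

omit [NormedAddCommGroup E] [NormedSpace ℝ E] in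
theorem band_neg : band D u c = band D (fun x => -u x) c := by
  simp only [band, abs_neg]

omit [NormedAddCommGroup E] [NormedSpace ℝ E] in
theorem cover {s : Finset ι} {v : ι → E → ℝ} {k : ι} (hJ : J ⊆ D) (hk : k ∈ s) :
    (J ∪ ⋃ j ∈ s, band D (v j) c) ×ˢ Icc (-c) c ∪ up D (v k) c ×ˢ Icc (-c) c ∪
      up D (fun x => -v k x) c ×ˢ Icc (-c) c = D ×ˢ Icc (-c) c := by
  rw [← union_prod, ← union_prod]
  congr 1
  refine Subset.antisymm (union_subset (union_subset (dom_sub hJ) fun _ h => h.1) fun _ h => h.1)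
    fun x hx => ?_
  rcases le_total c (v k x) with h | h
  · exact Or.inl (Or.inr ⟨hx, h⟩)
  · rcases le_total c (-v k x) with h' | h'
    · exact Or.inr ⟨hx, h'⟩
    · exact Or.inl (Or.inl (Or.inr (mem_biUnion hk ⟨hx, abs_le.2 ⟨neg_le.1 h', h⟩⟩)))

theorem all (h : LEXT) (v : ι → E → ℝ) (v' : ι → F → ℝ) (hc : 0 < c) (s : Finset ι) :
    St v v' c s := by
  induction s using Finset.strongInduction with
  | H s ih =>
  intro D J D' J' ψ hD hD' hF hF' hd hψ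
  rcases s.eq_empty_or_nonempty with rfl | ⟨k, hk⟩
  · have e1 : (J ∪ ⋃ k ∈ (∅ : Finset ι), band D (v k) c) ×ˢ Icc (-c) c = J ×ˢ Icc (-c) c := by
      simp
    have e2 : (J' ∪ ⋃ k ∈ (∅ : Finset ι), band D' (v' k) c) ×ˢ Icc (-c) c =
        J' ×ˢ Icc (-c) c := by simp
    obtain ⟨Ψ, h1, h2⟩ := h (ψ.cast e1 e2) hc hD hD' fun q hq => (hψ q (e1 ▸ hq)).1
    exact ⟨Ψ, fun q hq => h1 (e1 ▸ hq), fun q hq =>
      ⟨h2 q hq, fun k hk => absurd hk (Finset.notMem_empty k)⟩⟩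
  have f1 : Face D J c (v k) := hF k hk
  have f2 : Face D' J' c (v' k) := hF' k hk
  obtain ⟨Ψ₁, a1, a2⟩ := piece ih hc ψ hD hD' hF hF' hd hψ hk f1 f2 rfl rfl
    fun q hq => (hψ q hq).2.2 k hk
  obtain ⟨Ψ₂, b1, b2⟩ := piece ih hc ψ hD hD' hF hF' hd hψ hk f1.neg f2.neg band_neg band_neg
    fun q hq => same_neg ((hψ q hq).2.2 k hk)
  have c1 := dom_closed hD hc hF
  have c2 := dom_closed hD' hc hF'
  have c3 := (f1.sides hD hc).2.isClosed.prod (isClosed_Icc (a := -c) (b := c))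
  have c4 := (f2.sides hD' hc).2.isClosed.prod (isClosed_Icc (a := -c) (b := c))
  obtain ⟨G₁, g1, g2⟩ := glue_ext ψ Ψ₁ c1 c3 c2 c4 (fun q hq h' =>
    ⟨⟨dom_sub hD.1 hq.1, (top hc ((hψ q hq).2.2 k hk)).2.1 h'.1.2⟩, hq.2⟩) a1
  obtain ⟨G₂, g3, g4⟩ := glue_ext G₁ Ψ₂ (c1.union c3)
    ((f1.neg.sides hD hc).2.isClosed.prod isClosed_Icc) (c2.union c4)
    ((f2.neg.sides hD' hc).2.isClosed.prod isClosed_Icc)
    (fun q hq h' => by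
      rcases hq with hq | hq
      · rw [g1 hq] at h'
        exact ⟨⟨dom_sub hD.1 hq.1, (top hc (same_neg ((hψ q hq).2.2 k hk))).2.1 h'.1.2⟩, hq.2⟩
      · rw [g2 hq] at h'
        have h1 : c ≤ -v' k (Ψ₁.toFun q).1 := h'.1.2
        linarith [(Ψ₁.mapsTo hq).1.2])
    (fun q hq => by
      rcases hq.1 with h' | h'
      · exact (b1 ⟨h', hq.2⟩).trans (g1 h').symm
      · have h1 : c ≤ -v k q.1 := hq.2.1.2
        linarith [h'.1.2])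
  refine ⟨G₂.cast (cover hD.1 hk) (cover hD'.1 hk), fun q hq => (g3 (Or.inl hq)).trans (g1 hq),
    fun q hq => ?_⟩
  rw [← cover hD.1 hk] at hq
  rw [ConHomeo.cast_toFun]
  rcases hq with (hq | hq) | hq
  · rw [g3 (Or.inl hq), g1 hq]
    exact ⟨(hψ q hq).1, (hψ q hq).2.2⟩
  · rw [g3 (Or.inr hq), g2 hq]
    refine ⟨(a2 q hq).1, fun j hj => ?_⟩
    by_cases hjk : j = k
    exacts [hjk ▸ (a2 q hq).2.1, (a2 q hq).2.2 j hj hjk]
  · rw [g4 hq]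
    refine ⟨(b2 q hq).1, fun j hj => ?_⟩
    by_cases hjk : j = k
    · simpa only [hjk, neg_neg] using same_neg (b2 q hq).2.1
    · exact (b2 q hq).2.2 j hj hjk

end StripAux

theorem strip_of (h : LEXT) : STRIP := by
  intro E F _ _ _ _ ι s D J D' J' c v v' ψ hc
  exact StripAux.all h v v' hc s ψ

end P073.Fl
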