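import Vale.Agent.P073Y.Fl.Sk
import Vale.Agent.P073Z.SHELL.A
import Vale.Agent.P073Z.RCX

/-!
# Faces of the bands; the intersection of two crossing bands
-/

open Set Metric Topology Filter

namespace P073.Fl

namespace Tb

variable {E F : Type} [NormedAddCommGroup E] [NormedSpace ℝ E] [NormedAddCommGroup F]
  [NormedSpace ℝ F] {ι : Type} {s : Finset ι} {col : ι → Bool} {C B : Set E} {c a b r : ℝ}
  {v : ι → E → ℝ} {k j : ι}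

theorem s_eq (h : Same c a b) (hr : r ∈ Icc (-c) c) : a = r ↔ b = r := by
  rw [le_antisymm_iff, le_antisymm_iff, (h r hr).1, (h r hr).2]

theorem s_abs (h : Same c a b) (hc : 0 < c) : |a| ≤ c ↔ |b| ≤ c := by
  rw [abs_le, abs_le, (h c ⟨by linarith, le_rfl⟩).1, (h (-c) ⟨le_rfl, by linarith⟩).2]

theorem i0 (hc : 0 < c) : (0 : ℝ) ∈ Icc (-c) c := ⟨by linarith, hc.le⟩

theorem ends (hc : 0 < c) (ha : a ∈ ({-c, c} : Set ℝ)) : a ∈ Icc (-c) c := by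
  rcases ha with rfl | rfl <;> constructor <;> linarith

theorem img {X X' : Set E} {Y Y' : Set F} (σ : ConHomeo X Y) (hX : X' ⊆ X) (hY : Y' ⊆ Y)
    (h : ∀ x ∈ X, σ.toFun x ∈ Y' ↔ x ∈ X') : σ.toFun '' X' = Y' := by
  refine Subset.antisymm (image_subset_iff.2 fun x hx => (h x (hX hx)).2 hx) fun y hy => ?_
  have h1 := σ.right_inv (hY hy)
  exact ⟨_, (h _ (σ.mapsTo_inv (hY hy))).1 (h1.symm ▸ hy), h1⟩

theorem tr {n : ℕ} {X X' A : Set E} {Y Y' A' : Set F} (σ : ConHomeo X Y) (hb : ConBall n X' A)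
    (hX : X' ⊆ X) (hY : Y' ⊆ Y) (hA : A' ⊆ Y) (h1 : ∀ x ∈ X, σ.toFun x ∈ Y' ↔ x ∈ X')
    (h2 : ∀ x ∈ X, σ.toFun x ∈ A' ↔ x ∈ A) : ConBall n Y' A' :=
  img σ hX hY h1 ▸ img σ (hb.1.trans hX) hA h2 ▸ hb.image σ hX

/-- the parallel levels of a band -/
theorem slice (h : Cfg C B c s col v) (hk : k ∈ s) (ha : a ∈ Icc (-c) c) :
    ∃ σ : ConHomeo (lev C (v k) 0) (lev C (v k) a), ∀ x ∈ lev C (v k) 0,
      (σ.toFun x ∈ B ↔ x ∈ B) ∧ ∀ j ∈ s, col j ≠ col k → Same c (v j (σ.toFun x)) (v j x) := by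
  obtain ⟨κ, hκ⟩ := h.chart k hk
  have hD := (h.disc k hk).conicalSet
  have m : MapsTo (fun x => (x, a)) (lev C (v k) 0) (lev C (v k) 0 ×ˢ Icc (-c) c) :=
    fun x hx => ⟨hx, ha⟩
  have sub : lev C (v k) a ⊆ band C (v k) c := fun y hy => ⟨hy.1, hy.2.symm ▸ abs_le.2 ha⟩
  have cm : ContinuousOn (fun x => (x, a)) (lev C (v k) 0) := by fun_prop
  refine ⟨{ toFun x := κ.toFun (x, a)
            invFun y := (κ.invFun y).1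
            mapsTo := fun x hx => ⟨(κ.mapsTo (m hx)).1, ((hκ x hx).2 a ha).1⟩
            mapsTo_inv := fun y hy => (κ.mapsTo_inv (sub hy)).1
            left_inv := fun x hx => congrArg Prod.fst (κ.left_inv (m hx))
            right_inv := fun y hy => ?_
            cont := κ.cont.comp cm m
            cont_inv := continuous_fst.comp_continuousOn (κ.cont_inv.mono sub)
            conical := κ.conical.comp ((conicalOn_id hD).prodMk (conicalOn_const a hD)) m cm },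
    fun x hx => ((hκ x hx).2 a ha).2⟩
  have h1 := κ.mapsTo_inv (sub hy)
  have h2 := κ.right_inv (sub hy)
  have h3 : v k (κ.toFun (κ.invFun y)) = (κ.invFun y).2 := ((hκ _ h1.1).2 _ h1.2).1
  rw [h2, hy.2] at h3
  rw [h3]
  exact h2

theorem arc (h : Cfg C B c s col v) (hk : k ∈ s) (hj : j ∈ s) (hc : col k ≠ col j)
    (hL : ConBall 1 (lev (lev C (v k) 0) (v j) 0) (lev (lev B (v k) 0) (v j) 0))
    (ha : a ∈ Icc (-c) c) (hb : b ∈ Icc (-c) c) :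
    ConBall 1 (lev (lev C (v k) a) (v j) b) (lev (lev B (v k) a) (v j) b) := by
  obtain ⟨σ, hσ⟩ := slice h hj hb
  obtain ⟨ρ, hρ⟩ := slice h hk ha
  have hB := h.ball.1
  have h1 : ConBall 1 (lev (lev C (v k) 0) (v j) b) (lev (lev B (v k) 0) (v j) b) := by
    refine tr σ hL (fun x hx => ⟨hx.1.1, hx.2⟩) (fun x hx => ⟨hx.1.1, hx.2⟩)
      (fun x hx => ⟨hB hx.1.1, hx.2⟩) (fun x hx => ?_) fun x hx => ?_ <;>
    have e := s_eq ((hσ x hx).2 k hk hc) (i0 h.pos)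
    · exact ⟨fun hy => ⟨⟨hx.1, e.1 hy.1.2⟩, hx.2⟩,
        fun hy => ⟨⟨(σ.mapsTo hx).1, e.2 hy.1.2⟩, (σ.mapsTo hx).2⟩⟩
    · exact ⟨fun hy => ⟨⟨(hσ x hx).1.1 hy.1.1, e.1 hy.1.2⟩, hx.2⟩,
        fun hy => ⟨⟨(hσ x hx).1.2 hy.1.1, e.2 hy.1.2⟩, (σ.mapsTo hx).2⟩⟩
  refine tr ρ h1 (fun x hx => hx.1) (fun x hx => hx.1) (fun x hx => ⟨hB hx.1.1, hx.1.2⟩)
    (fun x hx => ?_) fun x hx => ?_ <;>
  have e := s_eq ((hρ x hx).2 j hj hc.symm) hb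
  · exact ⟨fun hy => ⟨hx, e.1 hy.2⟩, fun hy => ⟨ρ.mapsTo hx, e.2 hy.2⟩⟩
  · exact ⟨fun hy => ⟨⟨(hρ x hx).1.1 hy.1.1, hx.2⟩, e.1 hy.2⟩,
      fun hy => ⟨⟨(hρ x hx).1.2 hy.1.1, (ρ.mapsTo hx).2⟩, e.2 hy.2⟩⟩

/-- the chart of the intersection of two crossing bands -/
theorem chart (h : Cfg C B c s col v) (hk : k ∈ s) (hj : j ∈ s) (hc : col k ≠ col j)
    (hL : ConicalSet (lev (lev C (v k) 0) (v j) 0)) :
    ∃ T : ConHomeo ((lev (lev C (v k) 0) (v j) 0 ×ˢ Icc (-c) c) ×ˢ Icc (-c) c)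
      (band C (v k) c ∩ band C (v j) c),
      (∀ x ∈ lev (lev C (v k) 0) (v j) 0, T.toFun ((x, 0), 0) = x) ∧
      ∀ q ∈ (lev (lev C (v k) 0) (v j) 0 ×ˢ Icc (-c) c) ×ˢ Icc (-c) c,
        v k (T.toFun q) = q.2 ∧ v j (T.toFun q) = q.1.2 ∧ (T.toFun q ∈ B ↔ q.1.1 ∈ B) := by
  obtain ⟨κ, hκ⟩ := h.chart k hk
  obtain ⟨μ, hμ⟩ := h.chart j hj
  have hI := (locCone_Icc (-c) c).conicalSet
  have s1 : lev (lev C (v k) 0) (v j) 0 ×ˢ Icc (-c) c ⊆ lev C (v j) 0 ×ˢ Icc (-c) c :=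
    prod_mono_left fun x hx => ⟨hx.1.1, hx.2⟩
  let α := (μ.restr (Sh.conicalSet_prod hL hI) s1).cast rfl
    (img μ (Y' := band (lev C (v k) 0) (v j) c) s1 (fun x hx => ⟨hx.1.1, hx.2⟩) fun q hq => by
      have e := s_eq (((hμ _ hq.1).2 _ hq.2).2.2 k hk hc) (i0 h.pos)
      exact ⟨fun hy => ⟨⟨⟨hq.1.1, e.1 hy.1.2⟩, hq.1.2⟩, hq.2⟩,
        fun hy => ⟨⟨(μ.mapsTo hq).1, e.2 hy.1.1.2⟩, (μ.mapsTo hq).2⟩⟩)
  have s2 : band (lev C (v k) 0) (v j) c ×ˢ Icc (-c) c ⊆ lev C (v k) 0 ×ˢ Icc (-c) c :=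
    prod_mono_left fun x hx => hx.1
  let β := (κ.restr (Sh.conicalSet_prod α.conicalSet_right hI) s2).cast rfl
    (img κ (Y' := band C (v k) c ∩ band C (v j) c) s2 inter_subset_left fun q hq => by
      have e := s_abs (((hκ _ hq.1).2 _ hq.2).2.2 j hj hc.symm) h.pos
      exact ⟨fun hy => ⟨⟨hq.1, e.1 hy.2.2⟩, hq.2⟩,
        fun hy => ⟨κ.mapsTo hq, (κ.mapsTo hq).1, e.2 hy.1.2⟩⟩)
  refine ⟨(Sh.prod α (ConHomeo.refl hI)).trans β, fun x hx => ?_, fun q hq => ?_⟩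
  · change κ.toFun (μ.toFun (x, 0), 0) = x
    rw [(hμ x ⟨hx.1.1, hx.2⟩).1, (hκ x hx.1).1]
  · have h1 := (hμ _ (s1 hq.1).1).2 _ hq.1.2
    have h2 := (hκ _ (α.mapsTo hq.1).1).2 _ hq.2
    exact ⟨h2.1, (s_eq (h2.2.2 j hj hc.symm) hq.1.2).2 h1.1, h2.2.1.trans h1.2.1⟩

theorem pair' (h : Cfg C B c s col v) (hk : k ∈ s) (hj : j ∈ s) (hkj : k ≠ j)
    (hd : ¬ Disjoint (band C (v k) c) (band C (v j) c)) : ∃ p ∈ B, v k p = 0 ∧ v j p = 0 := by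
  obtain ⟨p, q, -, e⟩ := ((h.pair k hk j hj hkj).resolve_left hd).2.1.one_arc
  have h1 : p ∈ lev (lev B (v k) 0) (v j) 0 := e ▸ Or.inl rfl
  exact ⟨p, h1.1.1, h1.1.2, h1.2⟩

theorem not_disj (h : Cfg C B c s col v) {p : E} (hp : p ∈ B) (h1 : v k p = 0) (h2 : v j p = 0) :
    ¬ Disjoint (band C (v k) c) (band C (v j) c) :=
  not_disjoint_iff.2 ⟨p, ⟨h.ball.1 hp, by rw [h1, abs_zero]; exact h.pos.le⟩,
    h.ball.1 hp, by rw [h2, abs_zero]; exact h.pos.le⟩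

end Tb

open Tb

theorem cfg : CFG := by
  intro E _ _ ι s col C B c v h
  have hB := h.ball.1
  refine ⟨fun k hk => ⟨h.cont k hk, h.both k hk, fun a ha => ?_⟩, fun k hk j hj hkj => ?_,
    fun k hk t ht j hj => ?_⟩
  · obtain ⟨σ, hσ⟩ := slice h hk (ends h.pos ha)
    exact tr σ (h.disc k hk) subset_rfl subset_rfl (fun x hx => ⟨hB hx.1, hx.2⟩)
      (fun x hx => iff_of_true (σ.mapsTo hx) hx) fun x hx =>
        ⟨fun hy => ⟨(hσ x hx).1.1 hy.1, hx.2⟩, fun hy => ⟨(hσ x hx).1.2 hy.1, (σ.mapsTo hx).2⟩⟩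
  · refine (h.pair k hk j hj hkj).imp_right fun ⟨h1, h2, ⟨x, hx, h3⟩, y, hy, h4⟩ =>
      ⟨h1, fun a ha => ⟨?_, fun b hb => arc h hk hj h1 h2 (ends h.pos ha) (ends h.pos hb)⟩⟩
    obtain ⟨σ, hσ⟩ := slice h hk (ends h.pos ha)
    have hx' : x ∈ lev C (v k) 0 := ⟨hB hx.1, hx.2⟩
    have hy' : y ∈ lev C (v k) 0 := ⟨hB hy.1, hy.2⟩
    exact ⟨⟨_, ⟨(hσ x hx').1.2 hx.1, (σ.mapsTo hx').2⟩, not_le.1 fun e => h3.not_ge
        ((((hσ x hx').2 j hj h1.symm) _ (ends h.pos (Or.inl rfl))).2.1 e)⟩,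
      _, ⟨(hσ y hy').1.2 hy.1, (σ.mapsTo hy').2⟩, not_le.1 fun e => h4.not_ge
        ((((hσ y hy').2 j hj h1.symm) _ (ends h.pos (Or.inr rfl))).1.1 e)⟩
  · obtain ⟨h1, h2, h3⟩ := ht j hj
    obtain ⟨h4, h5, h6⟩ := (h.pair k hk j h1 h2.symm).resolve_left h3
    exact ⟨(h.cont j h1).mono fun x hx => hx.1, h6,
      fun a ha => arc h hk h1 h4 h5 (i0 h.pos) (ends h.pos ha)⟩

theorem tube : TUBE := by
  intro E F _ _ _ _ ι s col C B C' B' c v v' φ h h' hφ k hk j hj hkj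
  have z := fun x hx i hi => s_eq (hφ x hx i hi) (i0 h.pos)
  have d1 : ¬ Disjoint (band C (v k) c) (band C (v j) c) →
      ¬ Disjoint (band C' (v' k) c) (band C' (v' j) c) := fun hd => by
    obtain ⟨p, hp, h1, h2⟩ := pair' h hk hj hkj hd
    exact not_disj h' (φ.mapsTo hp) ((z p hp k hk).2 h1) ((z p hp j hj).2 h2)
  refine ⟨not_iff_not.1 ⟨d1, fun hd => ?_⟩, fun hd => ?_⟩
  · obtain ⟨p, hp, h1, h2⟩ := pair' h' hk hj hkj hd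
    have hq := φ.mapsTo_inv hp
    rw [← φ.right_inv hp] at h1 h2
    exact not_disj h hq ((z _ hq k hk).1 h1) ((z _ hq j hj).1 h2)
  obtain ⟨hc, hL, -⟩ := (h.pair k hk j hj hkj).resolve_left hd
  obtain ⟨-, hL', -⟩ := (h'.pair k hk j hj hkj).resolve_left (d1 hd)
  obtain ⟨T, T0, hT⟩ := chart h hk hj hc hL.conicalSet
  obtain ⟨T', T0', hT'⟩ := chart h' hk hj hc hL'.conicalSet
  have s1 : lev (lev B (v k) 0) (v j) 0 ⊆ B := fun x hx => hx.1.1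
  have e1 := img φ (Y' := lev (lev B' (v' k) 0) (v' j) 0) s1 (fun x hx => hx.1.1) fun x hx =>
    ⟨fun hy => ⟨⟨hx, (z x hx k hk).1 hy.1.2⟩, (z x hx j hj).1 hy.2⟩,
      fun hy => ⟨⟨φ.mapsTo hx, (z x hx k hk).2 hy.1.2⟩, (z x hx j hj).2 hy.2⟩⟩
  obtain ⟨lam, l1, l2⟩ := hL.exists_extend hL' ((φ.restr hL.conicalSet_bdry s1).cast rfl e1)
  have hI := (locCone_Icc (-c) c).conicalSet
  let P := Sh.prod (Sh.prod lam (ConHomeo.refl hI)) (ConHomeo.refl hI)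
  refine ⟨T.symm.trans (P.trans T'), fun y hy => ?_⟩
  obtain ⟨⟨⟨x, t⟩, r⟩, hq, rfl⟩ := T.image_eq.symm.subset hy
  have e2 : (T.symm.trans (P.trans T')).toFun (T.toFun ((x, t), r))
      = T'.toFun ((lam.toFun x, t), r) := congrArg (fun q => T'.toFun (P.toFun q)) (T.left_inv hq)
  obtain ⟨a1, a2, a3⟩ := hT _ hq
  obtain ⟨b1, b2, b3⟩ := hT' _ (P.mapsTo hq)
  rw [e2]
  refine ⟨b1.trans a1.symm, b2.trans a2.symm, (b3.trans ?_).trans a3.symm, fun hB => ?_⟩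
  · refine ⟨fun hx => ?_, fun hx => (l2.subset ⟨x, ⟨⟨hx, hq.1.1.1.2⟩, hq.1.1.2⟩, rfl⟩).1.1⟩
    have h1 := lam.mapsTo hq.1.1
    obtain ⟨w, hw, e⟩ := l2.symm.subset
      (show lam.toFun x ∈ lev (lev B' (v' k) 0) (v' j) 0 from ⟨⟨hx, h1.1.2⟩, h1.2⟩)
    exact lam.injOn (hL.1 hw) hq.1.1 e ▸ hw.1.1
  have hx : x ∈ lev (lev B (v k) 0) (v j) 0 := ⟨⟨a3.1 hB, hq.1.1.1.2⟩, hq.1.1.2⟩
  have m1 : MapsTo (fun p : ℝ × ℝ => ((x, p.1), p.2)) (Icc (-c) c ×ˢ Icc (-c) c)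
      ((lev (lev C (v k) 0) (v j) 0 ×ˢ Icc (-c) c) ×ˢ Icc (-c) c) :=
    fun p hp => ⟨⟨hq.1.1, hp.1⟩, hp.2⟩
  have m2 : MapsTo (fun p : ℝ × ℝ => T.toFun ((x, p.1), p.2)) (Icc (-c) c ×ˢ Icc (-c) c) B :=
    fun p hp => (hT _ (m1 hp)).2.2.2 hx.1.1
  have m3 : MapsTo (fun p : ℝ × ℝ => φ.toFun (T.toFun ((x, p.1), p.2))) (Icc (-c) c ×ˢ Icc (-c) c)
      (band C' (v' k) c ∩ band C' (v' j) c) := fun p hp =>
    ⟨⟨h'.ball.1 (φ.mapsTo (m2 hp)), (s_abs (hφ _ (m2 hp) k hk) h.pos).2 (T.mapsTo (m1 hp)).1.2⟩,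
      h'.ball.1 (φ.mapsTo (m2 hp)), (s_abs (hφ _ (m2 hp) j hj) h.pos).2 (T.mapsTo (m1 hp)).2.2⟩
  have key : (T'.invFun (φ.toFun (T.toFun ((x, t), r)))).1.1
      = (T'.invFun (φ.toFun (T.toFun ((x, 0), 0)))).1.1 := by
    obtain ⟨p, q, -, e⟩ := hL'.one_arc
    refine (isPreconnected_Icc.prod isPreconnected_Icc).constant_of_mapsTo
      (T := lev (lev B' (v' k) 0) (v' j) 0) (e ▸ (toFinite _).isDiscrete)
      (f := fun p : ℝ × ℝ => (T'.invFun (φ.toFun (T.toFun ((x, p.1), p.2)))).1.1)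
      (continuous_fst.fst.comp_continuousOn (T'.cont_inv.comp (φ.cont.comp
        (T.cont.comp (by fun_prop) m1) m2) m3)) (fun p hp => ?_) (x := (t, r)) (y := (0, 0))
      ⟨hq.1.2, hq.2⟩ ⟨i0 h.pos, i0 h.pos⟩
    have h1 := T'.mapsTo_inv (m3 hp)
    have h2 := (hT' _ h1).2.2
    rw [T'.right_inv (m3 hp)] at h2
    exact ⟨⟨h2.1 (φ.mapsTo (m2 hp)), h1.1.1.1.2⟩, h1.1.1.2⟩
  have h0 := hL'.1 (e1.subset ⟨x, hx, rfl⟩)
  rw [T0 x hq.1.1, ← T0' _ h0, T'.left_inv ⟨⟨h0, i0 h.pos⟩, i0 h.pos⟩] at key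
  have h3 : φ.toFun (T.toFun ((x, t), r)) ∈ _ := m3 (x := (t, r)) ⟨hq.1.2, hq.2⟩
  obtain ⟨c1, c2, -⟩ := hT' _ (T'.mapsTo_inv h3)
  rw [T'.right_inv h3] at c1 c2
  refine Eq.trans (congrArg T'.toFun ?_) (T'.right_inv h3)
  exact Prod.ext (Prod.ext ((l1 hx).trans key.symm)
    (((s_eq (hφ _ hB j hj) hq.1.2).2 a2).symm.trans c2))
    (((s_eq (hφ _ hB k hk) hq.2).2 a1).symm.trans c1)

end P073.Fl
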