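import Vale.Agent.P073Y.Fl.Lext
import Vale.Agent.P073Y.Fl.Strip
import Vale.Agent.P073Y.Fl.Fillc
import Vale.Agent.P073Y.Fl.Boxc
import Vale.Agent.P073Y.Fl.Tube
import Vale.Agent.P073Y.Fl.Flat

/-!
# Flattening of bands: assembly
-/

namespace P073.Fl

theorem strip : STRIP := strip_of lext

theorem flat : FLAT := flat_of cfg tube strip fillc

theorem flatten : FLATTEN := flatten_of flat boxc

end P073.Fl
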