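import Vale.Agent.P073Y.Cut.Sk

/-!
# Flattening of bands: statements
-/

open Set Metric Topology Filter

namespace P073.Fl

section Defs

variable {E : Type} [NormedAddCommGroup E] [NormedSpace ℝ E] {ι : Type}

/-- a level set -/
def lev (X : Set E) (u : E → ℝ) (a : ℝ) : Set E := {x ∈ X | u x = a}

/-- a band -/
def band (X : Set E) (u : E → ℝ) (c : ℝ) : Set E := {x ∈ X | |u x| ≤ c}

/-- `a` and `b` have the same position relative to all points of `[-c, c]` -/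
def Same (c a b : ℝ) : Prop := ∀ r ∈ Icc (-c) c, (a ≤ r ↔ b ≤ r) ∧ (r ≤ a ↔ r ≤ b)

/-- `u` takes values below `-c` and above `c` on `X` -/
def Both (X : Set E) (u : E → ℝ) (c : ℝ) : Prop := (∃ x ∈ X, u x < -c) ∧ ∃ x ∈ X, c < u x

/-- the two faces of every band are proper `n`-balls -/
def Faces (n : ℕ) (C B : Set E) (c : ℝ) (s : Finset ι) (v : ι → E → ℝ) : Prop :=
  ∀ k ∈ s, ContinuousOn (v k) C ∧ Both B (v k) c ∧
    ∀ a ∈ ({-c, c} : Set ℝ), ConBall n (lev C (v k) a) (lev B (v k) a)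

/-- bands with product charts in a three-ball; bands of the same colour are disjoint, bands of
different colours are disjoint or their middle walls cross in one arc -/
structure Cfg (C B : Set E) (c : ℝ) (s : Finset ι) (col : ι → Bool) (v : ι → E → ℝ) : Prop where
  ball : ConBall 3 C B
  pos : 0 < c
  cont : ∀ k ∈ s, ContinuousOn (v k) C
  disc : ∀ k ∈ s, ConBall 2 (lev C (v k) 0) (lev B (v k) 0)
  both : ∀ k ∈ s, Both B (v k) c
  chart : ∀ k ∈ s, ∃ κ : ConHomeo (lev C (v k) 0 ×ˢ Icc (-c) c) (band C (v k) c),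
    ∀ x ∈ lev C (v k) 0, κ.toFun (x, 0) = x ∧ ∀ r ∈ Icc (-c) c, v k (κ.toFun (x, r)) = r ∧
      (κ.toFun (x, r) ∈ B ↔ x ∈ B) ∧
      ∀ j ∈ s, col j ≠ col k → Same c (v j (κ.toFun (x, r))) (v j x)
  pair : ∀ k ∈ s, ∀ j ∈ s, k ≠ j → Disjoint (band C (v k) c) (band C (v j) c) ∨
    (col k ≠ col j ∧ ConBall 1 (lev (lev C (v k) 0) (v j) 0) (lev (lev B (v k) 0) (v j) 0) ∧
      Both (lev B (v k) 0) (v j) c)

end Defs

/-- level preserving extension -/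
def LEXT : Prop := ∀ {E F : Type} [NormedAddCommGroup E] [NormedSpace ℝ E]
  [NormedAddCommGroup F] [NormedSpace ℝ F] {n : ℕ} {D J : Set E} {D' J' : Set F} {c : ℝ}
  (ψ : ConHomeo (J ×ˢ Icc (-c) c) (J' ×ˢ Icc (-c) c)), 0 < c → ConBall n D J → ConBall n D' J' →
  (∀ q ∈ J ×ˢ Icc (-c) c, (ψ.toFun q).2 = q.2) →
  ∃ Ψ : ConHomeo (D ×ˢ Icc (-c) c) (D' ×ˢ Icc (-c) c), EqOn Ψ.toFun ψ.toFun (J ×ˢ Icc (-c) c) ∧
    ∀ q ∈ D ×ˢ Icc (-c) c, (Ψ.toFun q).2 = q.2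

/-- level preserving extension over a disc with disjoint strips -/
def STRIP : Prop := ∀ {E F : Type} [NormedAddCommGroup E] [NormedSpace ℝ E]
  [NormedAddCommGroup F] [NormedSpace ℝ F] {ι : Type} (s : Finset ι) {D J : Set E} {D' J' : Set F}
  {c : ℝ} (v : ι → E → ℝ) (v' : ι → F → ℝ)
  (ψ : ConHomeo ((J ∪ ⋃ k ∈ s, band D (v k) c) ×ˢ Icc (-c) c)
    ((J' ∪ ⋃ k ∈ s, band D' (v' k) c) ×ˢ Icc (-c) c)),
  0 < c → ConBall 2 D J → ConBall 2 D' J' → Faces 1 D J c s v → Faces 1 D' J' c s v' →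
  (∀ k ∈ s, ∀ j ∈ s, k ≠ j → Disjoint (band D (v k) c) (band D (v j) c) ∧
    Disjoint (band D' (v' k) c) (band D' (v' j) c)) →
  (∀ q ∈ (J ∪ ⋃ k ∈ s, band D (v k) c) ×ˢ Icc (-c) c, (ψ.toFun q).2 = q.2 ∧
    ((ψ.toFun q).1 ∈ J' ↔ q.1 ∈ J) ∧ ∀ k ∈ s, Same c (v' k (ψ.toFun q).1) (v k q.1)) →
  ∃ Ψ : ConHomeo (D ×ˢ Icc (-c) c) (D' ×ˢ Icc (-c) c),
    EqOn Ψ.toFun ψ.toFun ((J ∪ ⋃ k ∈ s, band D (v k) c) ×ˢ Icc (-c) c) ∧
    ∀ q ∈ D ×ˢ Icc (-c) c, (Ψ.toFun q).2 = q.2 ∧ ∀ k ∈ s, Same c (v' k (Ψ.toFun q).1) (v k q.1)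

/-- two bands are disjoint or cross -/
def Pairs {E : Type} [NormedAddCommGroup E] [NormedSpace ℝ E] {ι : Type} (C B : Set E) (c : ℝ)
    (s : Finset ι) (col : ι → Bool) (v : ι → E → ℝ) : Prop :=
  ∀ k ∈ s, ∀ j ∈ s, k ≠ j → Disjoint (band C (v k) c) (band C (v j) c) ∨
    (col k ≠ col j ∧ ∀ a ∈ ({-c, c} : Set ℝ), Both (lev B (v k) a) (v j) c ∧
      ∀ b ∈ ({-c, c} : Set ℝ),
        ConBall 1 (lev (lev C (v k) a) (v j) b) (lev (lev B (v k) a) (v j) b))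

/-- extension over the columns -/
def FILLC : Prop := ∀ {E F : Type} [NormedAddCommGroup E] [NormedSpace ℝ E]
  [NormedAddCommGroup F] [NormedSpace ℝ F] {ι : Type} (s : Finset ι) (col : ι → Bool)
  {C B : Set E} {C' B' : Set F} {c : ℝ} (v : ι → E → ℝ) (v' : ι → F → ℝ)
  (ψ : ConHomeo (B ∪ ⋃ k ∈ s, band C (v k) c) (B' ∪ ⋃ k ∈ s, band C' (v' k) c)),
  0 < c → ConBall 3 C B → ConBall 3 C' B' → Faces 2 C B c s v → Faces 2 C' B' c s v' →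
  Pairs C B c s col v → Pairs C' B' c s col v' →
  (∀ x ∈ B ∪ ⋃ k ∈ s, band C (v k) c, (ψ.toFun x ∈ B' ↔ x ∈ B) ∧
    ∀ k ∈ s, Same c (v' k (ψ.toFun x)) (v k x)) →
  ∃ Φ : ConHomeo C C', EqOn Φ.toFun ψ.toFun (B ∪ ⋃ k ∈ s, band C (v k) c) ∧
    ∀ x ∈ C, ∀ k ∈ s, Same c (v' k (Φ.toFun x)) (v k x)

/-- faces and pairs of a configuration -/
def CFG : Prop := ∀ {E : Type} [NormedAddCommGroup E] [NormedSpace ℝ E] {ι : Type}
  {s : Finset ι} {col : ι → Bool} {C B : Set E} {c : ℝ} {v : ι → E → ℝ}, Cfg C B c s col v →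
  Faces 2 C B c s v ∧ Pairs C B c s col v ∧
  ∀ k ∈ s, ∀ t : Finset ι, (∀ j ∈ t, j ∈ s ∧ j ≠ k ∧
    ¬ Disjoint (band C (v k) c) (band C (v j) c)) → Faces 1 (lev C (v k) 0) (lev B (v k) 0) c t v

/-- the map on the intersection of two crossing bands -/
def TUBE : Prop := ∀ {E F : Type} [NormedAddCommGroup E] [NormedSpace ℝ E]
  [NormedAddCommGroup F] [NormedSpace ℝ F] {ι : Type} {s : Finset ι} {col : ι → Bool}
  {C B : Set E} {C' B' : Set F} {c : ℝ} {v : ι → E → ℝ} {v' : ι → F → ℝ} (φ : ConHomeo B B'),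
  Cfg C B c s col v → Cfg C' B' c s col v' →
  (∀ x ∈ B, ∀ k ∈ s, Same c (v' k (φ.toFun x)) (v k x)) →
  ∀ k ∈ s, ∀ j ∈ s, k ≠ j →
    (Disjoint (band C (v k) c) (band C (v j) c) ↔ Disjoint (band C' (v' k) c) (band C' (v' j) c)) ∧
    (¬ Disjoint (band C (v k) c) (band C (v j) c) →
      ∃ τ : ConHomeo (band C (v k) c ∩ band C (v j) c) (band C' (v' k) c ∩ band C' (v' j) c),
        ∀ x ∈ band C (v k) c ∩ band C (v j) c, v' k (τ.toFun x) = v k x ∧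
          v' j (τ.toFun x) = v j x ∧ (τ.toFun x ∈ B' ↔ x ∈ B) ∧ (x ∈ B → τ.toFun x = φ.toFun x))

/-- flattening, abstract form -/
def FLAT : Prop := ∀ {E F : Type} [NormedAddCommGroup E] [NormedSpace ℝ E]
  [NormedAddCommGroup F] [NormedSpace ℝ F] {ι : Type} {s : Finset ι} {col : ι → Bool}
  {C B : Set E} {C' B' : Set F} {c : ℝ} {v : ι → E → ℝ} {v' : ι → F → ℝ} (φ : ConHomeo B B'),
  Cfg C B c s col v → Cfg C' B' c s col v' →
  (∀ x ∈ B, ∀ k ∈ s, Same c (v' k (φ.toFun x)) (v k x)) →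
  ∃ Φ : ConHomeo C C', EqOn Φ.toFun φ.toFun B ∧
    ∀ x ∈ C, ∀ k ∈ s, Same c (v' k (Φ.toFun x)) (v k x)

/-- the coordinate of a colour -/
def co (b : Bool) : Fin 3 := if b then 1 else 0

/-- slabs in a box -/
def BOXC : Prop := ∀ {ι : Type} (s : Finset ι) (col : ι → Bool) (a r : ι → ℝ) {lo hi : E3} {c : ℝ},
  (∀ i, lo i < hi i) → 0 < c →
  (∀ k ∈ s, 0 < r k ∧ lo (co (col k)) < a k - c * r k ∧ a k + c * r k < hi (co (col k))) →
  (∀ k ∈ s, ∀ j ∈ s, k ≠ j → col k = col j →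
    a k + c * r k < a j - c * r j ∨ a j + c * r j < a k - c * r k) →
  Cfg (Icc lo hi) (frontier (Icc lo hi)) c s col fun k y => (y (co (col k)) - a k) / r k

/-- flattening onto a box -/
def FLATTEN : Prop := ∀ {E : Type} [NormedAddCommGroup E] [NormedSpace ℝ E] {ι : Type}
  {s : Finset ι} {col : ι → Bool} (a r : ι → ℝ) {lo hi : E3} {C B : Set E} {c : ℝ}
  {v : ι → E → ℝ} (φ : ConHomeo B (frontier (Icc lo hi))), (∀ i, lo i < hi i) →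
  (∀ k ∈ s, 0 < r k ∧ lo (co (col k)) < a k - c * r k ∧ a k + c * r k < hi (co (col k))) →
  (∀ k ∈ s, ∀ j ∈ s, k ≠ j → col k = col j →
    a k + c * r k < a j - c * r j ∨ a j + c * r j < a k - c * r k) →
  Cfg C B c s col v →
  (∀ x ∈ B, ∀ k ∈ s, Same c ((φ.toFun x (co (col k)) - a k) / r k) (v k x)) →
  ∃ G : ConHomeo C (Icc lo hi), EqOn G.toFun φ.toFun B ∧
    ∀ x ∈ C, ∀ k ∈ s, Same c ((G.toFun x (co (col k)) - a k) / r k) (v k x)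

theorem flatten_of (h1 : FLAT) (h2 : BOXC) : FLATTEN := by
  intro E _ _ ι s col a r lo hi C B c v φ hl hr hs hC hφ
  exact h1 φ hC (h2 s col a r hl hC.pos hr hs) hφ

end P073.Fl
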