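import Vale.Agent.P073Y.Fl.Sk
import Vale.Agent.P073Z.SHELL.A

/-!
# Level preserving extension
-/

open Set Metric Topology Filter

namespace P073.Fl

namespace LextAux

variable {E F : Type} [NormedAddCommGroup E] [NormedSpace ℝ E]
  [NormedAddCommGroup F] [NormedSpace ℝ F]

/-- a set and its copy at height `a` -/
def slice {D : Set E} (hD : ConicalSet D) (a : ℝ) : ConHomeo D (D ×ˢ ({a} : Set ℝ)) where
  toFun x := (x, a)
  invFun q := q.1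
  mapsTo := fun _ hx => ⟨hx, rfl⟩
  mapsTo_inv := fun _ hq => hq.1
  left_inv := fun _ _ => rfl
  right_inv := fun _ hq => Prod.ext rfl (Eq.symm hq.2)
  cont := continuousOn_id.prodMk continuousOn_const
  cont_inv := continuousOn_fst
  conical := (conicalOn_id hD).prodMk (conicalOn_const a hD)

theorem ball_slice {n : ℕ} {D J : Set E} (h : ConBall n D J) (a : ℝ) :
    ConBall n (D ×ˢ ({a} : Set ℝ)) (J ×ˢ ({a} : Set ℝ)) := by
  have := h.image (slice h.conicalSet a) Subset.rfl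
  rwa [prod_singleton, prod_singleton]

theorem std_ball (n : ℕ) : ConBall n (closedBall (0 : Fin n → ℝ) 1) (sphere 0 1) :=
  ⟨sphere_subset_closedBall, ConHomeo.refl (locCone_closedBall_pi n 1).conicalSet, image_id' _⟩

/-- the two ends -/
def en (c : ℝ) (b : Bool) : ℝ := if b then c else -c

theorem en_mem {c : ℝ} (hc : 0 < c) (b : Bool) : en c b ∈ Icc (-c) c := by
  cases b <;> simp [en, hc.le]

theorem fr_eq (n : ℕ) {c : ℝ} (hc : 0 < c) :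
    sphere (0 : Fin n → ℝ) 1 ×ˢ Icc (-c) c ∪
      ⋃ b, closedBall (0 : Fin n → ℝ) 1 ×ˢ ({en c b} : Set ℝ) =
      frontier (closedBall (0 : Fin n → ℝ) 1 ×ˢ Icc (-c) c) := by
  rw [frontier_prod_eq, frontier_closedBall _ one_ne_zero, frontier_Icc (by linarith),
    isClosed_closedBall.closure_eq, isClosed_Icc.closure_eq, union_comm]
  congr 1
  ext q
  simp only [mem_iUnion, mem_prod, mem_singleton_iff, mem_insert_iff, Bool.exists_bool, en]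
  simp only [Bool.false_eq_true, if_false, if_true]
  tauto

theorem std (n : ℕ) {c : ℝ} (hc : 0 < c)
    (ψ : ConHomeo (sphere (0 : Fin n → ℝ) 1 ×ˢ Icc (-c) c) (sphere (0 : Fin n → ℝ) 1 ×ˢ Icc (-c) c))
    (hψ : ∀ q ∈ sphere (0 : Fin n → ℝ) 1 ×ˢ Icc (-c) c, (ψ.toFun q).2 = q.2) :
    ∃ Ψ : ConHomeo (closedBall (0 : Fin n → ℝ) 1 ×ˢ Icc (-c) c)
      (closedBall (0 : Fin n → ℝ) 1 ×ˢ Icc (-c) c),
      EqOn Ψ.toFun ψ.toFun (sphere (0 : Fin n → ℝ) 1 ×ˢ Icc (-c) c) ∧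
      ∀ q ∈ closedBall (0 : Fin n → ℝ) 1 ×ˢ Icc (-c) c, (Ψ.toFun q).2 = q.2 := by
  have hX : ∀ b, closedBall (0 : Fin n → ℝ) 1 ×ˢ ({en c b} : Set ℝ) ∩
      sphere (0 : Fin n → ℝ) 1 ×ˢ Icc (-c) c = sphere (0 : Fin n → ℝ) 1 ×ˢ ({en c b} : Set ℝ) :=
    fun b => Subset.antisymm (fun q hq => ⟨hq.2.1, hq.1.2⟩) fun q hq =>
      ⟨⟨sphere_subset_closedBall hq.1, hq.2⟩, hq.1, hq.2 ▸ en_mem hc b⟩
  have hd : ∀ b b', b ≠ b' → closedBall (0 : Fin n → ℝ) 1 ×ˢ ({en c b} : Set ℝ) ∩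
      closedBall (0 : Fin n → ℝ) 1 ×ˢ ({en c b'} : Set ℝ) ⊆
      sphere (0 : Fin n → ℝ) 1 ×ˢ Icc (-c) c := by
    intro b b' hb q hq
    have h1 : en c b = en c b' := Eq.trans (Eq.symm hq.1.2) hq.2.2
    cases b <;> cases b' <;> simp [en] at h1 hb <;> linarith
  have hcl : IsClosed (sphere (0 : Fin n → ℝ) 1 ×ˢ Icc (-c) c) := isClosed_sphere.prod isClosed_Icc
  obtain ⟨θ, h1, h2⟩ := ConHomeo.exists_extend_cells ψ (fun _ : Bool => n)
    (fun b => closedBall (0 : Fin n → ℝ) 1 ×ˢ ({en c b} : Set ℝ))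
    (fun b => sphere (0 : Fin n → ℝ) 1 ×ˢ ({en c b} : Set ℝ))
    (fun b => closedBall (0 : Fin n → ℝ) 1 ×ˢ ({en c b} : Set ℝ))
    (fun b => sphere (0 : Fin n → ℝ) 1 ×ˢ ({en c b} : Set ℝ))
    (fun b => ball_slice (std_ball n) _) (fun b => ball_slice (std_ball n) _)
    (fun b => by
      refine Subset.antisymm ?_ fun y hy => ?_
      · rintro _ ⟨q, hq, rfl⟩
        have hq' : q ∈ sphere (0 : Fin n → ℝ) 1 ×ˢ Icc (-c) c := ⟨hq.1, hq.2 ▸ en_mem hc b⟩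
        exact ⟨(ψ.mapsTo hq').1, (hψ q hq').trans hq.2⟩
      · have hy' : y ∈ sphere (0 : Fin n → ℝ) 1 ×ˢ Icc (-c) c := ⟨hy.1, hy.2 ▸ en_mem hc b⟩
        have h3 := hψ _ (ψ.mapsTo_inv hy')
        rw [ψ.right_inv hy'] at h3
        exact ⟨_, ⟨(ψ.mapsTo_inv hy').1, h3.symm.trans hy.2⟩, ψ.right_inv hy'⟩)
    hX hX hd hd (fun z _ hz => by rwa [hcl.closure_eq] at hz)
    (fun z _ hz => by rwa [hcl.closure_eq] at hz)
    (fun _ _ => ⟨univ, univ_mem, toFinite _⟩) (fun _ _ => ⟨univ, univ_mem, toFinite _⟩)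
  have hK : IsCompact (closedBall (0 : Fin n → ℝ) 1 ×ˢ Icc (-c) c) :=
    (isCompact_closedBall _ _).prod isCompact_Icc
  have hv : Convex ℝ (closedBall (0 : Fin n → ℝ) 1 ×ˢ Icc (-c) c) :=
    (convex_closedBall _ _).prod (convex_Icc _ _)
  have h0 : closedBall (0 : Fin n → ℝ) 1 ×ˢ Icc (-c) c ∈ 𝓝 (0 : (Fin n → ℝ) × ℝ) :=
    prod_mem_nhds (closedBall_mem_nhds _ one_pos) (Icc_mem_nhds (neg_lt_zero.2 hc) hc)
  have hR := rayBase_frontier hK hv h0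
  have hC := coneSet_frontier hK hv h0
  refine ⟨(ConHomeo.cone hR hR (θ.cast (fr_eq n hc) (fr_eq n hc))).cast hC hC, fun q hq => ?_,
    fun q hq => ?_⟩
  · exact (ConHomeo.cone_eqOn hR hR _ (fr_eq n hc ▸ Or.inl hq)).trans (h1 hq)
  · rw [← hC] at hq
    obtain ⟨s, hs, x, hx, rfl⟩ := hq
    rw [ConHomeo.cast_toFun, ConHomeo.cone_smul hR hR _ hs hx, Prod.smul_snd, Prod.smul_snd,
      ConHomeo.cast_toFun]
    congr 1
    rw [← fr_eq n hc] at hx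
    rcases hx with hx | hx
    · rw [h1 hx, hψ x hx]
    · obtain ⟨b, hb⟩ := mem_iUnion.1 hx
      have h3 : θ.toFun x ∈ closedBall (0 : Fin n → ℝ) 1 ×ˢ ({en c b} : Set ℝ) :=
        h2 b ▸ mem_image_of_mem _ hb
      exact Eq.trans h3.2 (Eq.symm hb.2)

end LextAux

open LextAux

theorem lext : LEXT := by
  intro E F _ _ _ _ n D J D' J' c ψ hc hD hD' hψ
  have hI : ConicalSet (Icc (-c) c) := Convex.conicalSet (convex_Icc _ _)
  have hB := hD.conicalSet_bdry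
  have hB' := hD'.conicalSet_bdry
  obtain ⟨hJ, α, hα⟩ := hD
  obtain ⟨hJ', β, hβ⟩ := hD'
  let a := Sh.prod ((α.restr hB hJ).cast rfl hα) (ConHomeo.refl hI)
  let b := Sh.prod ((β.restr hB' hJ').cast rfl hβ) (ConHomeo.refl hI)
  obtain ⟨Ψ, h1, h2⟩ := std n hc (a.symm.trans (ψ.trans b)) fun q hq =>
    hψ _ (a.mapsTo_inv hq)
  refine ⟨(Sh.prod α (ConHomeo.refl hI)).trans (Ψ.trans (Sh.prod β (ConHomeo.refl hI)).symm),
    fun q hq => ?_, fun q hq => h2 _ ((Sh.prod α (ConHomeo.refl hI)).mapsTo hq)⟩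
  show b.invFun (Ψ.toFun (a.toFun q)) = ψ.toFun q
  rw [h1 (a.mapsTo hq)]
  show b.invFun (b.toFun (ψ.toFun (a.invFun (a.toFun q)))) = ψ.toFun q
  rw [a.left_inv hq, b.left_inv (ψ.mapsTo hq)]

end P073.Fl
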